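import Mathlib

/-! Finite averages (row 115). -/

set_option autoImplicit false

namespace Crest.Agent.R115

open Finset

/-- The uniform average of a real function on a finite type. -/
noncomputable def av {α : Type} [Fintype α] (f : α → ℝ) : ℝ := (∑ a, f a) / Fintype.card α

section
variable {α β : Type} [Fintype α] [Fintype β]

lemma av_congr {f g : α → ℝ} (h : ∀ a, f a = g a) : av f = av g := by
  rw [show f = g from funext h]

lemma av_add (f g : α → ℝ) : av (fun a => f a + g a) = av f + av g := by
  simp only [av, sum_add_distrib, add_div]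

lemma av_sub (f g : α → ℝ) : av (fun a => f a - g a) = av f - av g := by
  simp only [av, sum_sub_distrib, sub_div]

lemma av_mul_left (c : ℝ) (f : α → ℝ) : av (fun a => c * f a) = c * av f := by
  simp only [av, ← mul_sum, mul_div_assoc]

lemma av_mul_right (c : ℝ) (f : α → ℝ) : av (fun a => f a * c) = av f * c := by
  simp only [av, ← sum_mul]; ring

lemma av_div (c : ℝ) (f : α → ℝ) : av (fun a => f a / c) = av f / c := by
  simp only [div_eq_mul_inv]; exact av_mul_right _ _

lemma av_zero : av (fun _ : α => (0 : ℝ)) = 0 := by simp [av]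

lemma av_const [Nonempty α] (c : ℝ) : av (fun _ : α => c) = c := by
  have : (Fintype.card α : ℝ) ≠ 0 := by exact_mod_cast Fintype.card_ne_zero
  simp only [av, sum_const, card_univ, nsmul_eq_mul]
  field_simp

lemma av_mono {f g : α → ℝ} (h : ∀ a, f a ≤ g a) : av f ≤ av g :=
  div_le_div_of_nonneg_right (sum_le_sum fun a _ => h a) (Nat.cast_nonneg _)

lemma av_le [Nonempty α] {f : α → ℝ} {c : ℝ} (h : ∀ a, f a ≤ c) : av f ≤ c :=
  (av_mono h).trans_eq (av_const c)

lemma le_av [Nonempty α] {f : α → ℝ} {c : ℝ} (h : ∀ a, c ≤ f a) : c ≤ av f :=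
  (av_const c).symm.trans_le (av_mono h)

lemma av_nonneg {f : α → ℝ} (h : ∀ a, 0 ≤ f a) : 0 ≤ av f :=
  (av_zero (α := α)).symm.trans_le (av_mono h)

lemma abs_av_le (f : α → ℝ) : |av f| ≤ av (fun a => |f a|) := by
  simp only [av, abs_div, Nat.abs_cast]
  exact div_le_div_of_nonneg_right (abs_sum_le_sum_abs _ _) (Nat.cast_nonneg _)

lemma av_sum {ι : Type} (s : Finset ι) (f : ι → α → ℝ) :
    av (fun a => ∑ i ∈ s, f i a) = ∑ i ∈ s, av (f i) := by
  simp only [av, ← sum_div]
  rw [sum_comm]

lemma av_comm (f : α → β → ℝ) : av (fun a => av (fun b => f a b)) = av (fun b => av (fun a => f a b)) := by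
  simp only [av, ← sum_div]
  rw [sum_comm, div_div, div_div, mul_comm]

lemma av_prod (f : α × β → ℝ) : av f = av (fun a => av (fun b => f (a, b))) := by
  simp only [av, ← sum_div, Fintype.sum_prod_type, Fintype.card_prod, Nat.cast_mul]
  rw [div_div, mul_comm]

lemma av_bij (e : α → β) (he : Function.Bijective e) (f : β → ℝ) : av (fun a => f (e a)) = av f := by
  simp only [av]
  rw [he.sum_comp, Fintype.card_of_bijective he]

lemma av_sq_le [Nonempty α] (f : α → ℝ) : (av f) ^ 2 ≤ av (fun a => f a ^ 2) := by
  have h : 0 ≤ av (fun a => (f a - av f) ^ 2) := av_nonneg fun a => sq_nonneg _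
  have h2 : av (fun a => (f a - av f) ^ 2)
      = av (fun a => f a ^ 2) - (av f) ^ 2 := by
    have : (fun a => (f a - av f) ^ 2) = fun a => (f a ^ 2 - 2 * av f * f a) + (av f) ^ 2 := by
      funext a; ring
    rw [this, av_add, av_sub, av_mul_left, av_const]; ring
  linarith

lemma av_ite (p : α → Prop) [DecidablePred p] :
    av (fun a => if p a then (1 : ℝ) else 0) = ((univ.filter p).card : ℝ) / Fintype.card α := by
  simp [av]

/-- Orthogonal families: the second moment of the sum is the sum of the second moments. -/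
lemma av_sq_sum {ι : Type} [DecidableEq ι] (s : Finset ι) (u : ι → α → ℝ)
    (h : ∀ i ∈ s, ∀ j ∈ s, i ≠ j → av (fun a => u i a * u j a) = 0) :
    av (fun a => (∑ i ∈ s, u i a) ^ 2) = ∑ i ∈ s, av (fun a => u i a ^ 2) := by
  have : (fun a => (∑ i ∈ s, u i a) ^ 2) = fun a => ∑ i ∈ s, ∑ j ∈ s, u i a * u j a := by
    funext a; rw [sq, sum_mul_sum]
  rw [this, av_sum]
  refine sum_congr rfl fun i hi => ?_
  rw [av_sum, sum_eq_single i]
  · simp only [sq]
  · intro j hj hji; exact h i hi j hj (Ne.symm hji)
  · intro hi'; exact absurd hi hi'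

end

/-- Resampling one coordinate does not change an average over a product. -/
lemma av_resample {ι : Type} [Fintype ι] [DecidableEq ι] {A : ι → Type} [∀ i, Fintype (A i)]
    (i : ι) [Nonempty (A i)] (G : (∀ j, A j) → ℝ) :
    av G = av (fun w => av (fun a : A i => G (Function.update w i a))) := by
  have hb : Function.Bijective (fun p : (∀ j, A j) × A i => ((Function.update p.1 i p.2, p.1 i) :
      (∀ j, A j) × A i)) := by
    apply Function.Involutive.bijective
    rintro ⟨w, a⟩
    simp
  rw [← av_prod (fun p : (∀ j, A j) × A i => G (Function.update p.1 i p.2))]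
  have := av_bij _ hb (fun p : (∀ j, A j) × A i => G p.1)
  simp only at this
  rw [this, av_prod]
  simp only [av_const]

/-- A coordinate of a uniform point of a product is uniform. -/
lemma av_coord {ι : Type} [Fintype ι] [DecidableEq ι] {A : ι → Type} [∀ i, Fintype (A i)]
    [∀ i, Nonempty (A i)] (i : ι) (g : A i → ℝ) :
    av (fun w : ∀ j, A j => g (w i)) = av g := by
  rw [av_resample i]
  simp only [Function.update_self]
  exact av_const _

/-- The overwrite lemma: a bounded function of an `N`-tuple cannot see, on average over `z`, that a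
random position was overwritten by `z`. -/
lemma overwrite {I : Type} [Fintype I] [Nonempty I] {N : ℕ} (g : (Fin (N + 1) → I) → ℝ) (L : ℝ)
    (hg : ∀ x, |g x| ≤ L) :
    av (fun z : I => (av (fun k : Fin (N + 1) => av (fun x => g (Function.update x k z))) - av g) ^ 2)
      ≤ L ^ 2 / (N + 1) := by
  classical
  set u : Fin (N + 1) → I → ℝ := fun k z => av (fun x => g (Function.update x k z)) - av g with hu
  have hu0 : ∀ k, av (u k) = 0 := by
    intro k
    simp only [hu]
    rw [av_sub, av_const, av_comm, ← av_resample k g, sub_self]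
  set A : ℝ := ∑ k, av (fun z => u k z ^ 2) with hA
  have hA0 : 0 ≤ A := sum_nonneg fun k _ => av_nonneg fun z => sq_nonneg _
  -- `U x = ∑ k, u k (x k)`
  have hUU : av (fun x : Fin (N + 1) → I => (∑ k, u k (x k)) ^ 2) = A := by
    rw [av_sq_sum univ (fun k (x : Fin (N + 1) → I) => u k (x k))]
    · exact sum_congr rfl fun k _ => av_coord (A := fun _ => I) k (fun z => u k z ^ 2)
    · intro i _ j _ hij
      rw [av_resample (A := fun _ => I) i]
      simp only [Function.update_self, Function.update_of_ne hij.symm]
      simp only [av_mul_right, hu0, zero_mul, av_zero]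
  have hgU : av (fun x : Fin (N + 1) → I => g x * ∑ k, u k (x k)) = A := by
    simp only [mul_sum]
    rw [av_sum]
    refine sum_congr rfl fun k _ => ?_
    rw [av_resample (A := fun _ => I) k, av_comm]
    simp only [Function.update_self, av_mul_right]
    have : ∀ z, av (fun x => g (Function.update x k z)) * u k z = u k z ^ 2 + av g * u k z := by
      intro z; simp only [hu]; ring
    simp only [this]
    rw [av_add, av_mul_left, hu0, mul_zero, add_zero]
  have hAL : A ≤ L ^ 2 := by
    have h1 : 0 ≤ av (fun x : Fin (N + 1) → I => (g x - ∑ k, u k (x k)) ^ 2) :=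
      av_nonneg fun x => sq_nonneg _
    have h2 : (fun x : Fin (N + 1) → I => (g x - ∑ k, u k (x k)) ^ 2)
        = fun x => (g x ^ 2 - 2 * (g x * ∑ k, u k (x k))) + (∑ k, u k (x k)) ^ 2 := by
      funext x; ring
    rw [h2, av_add, av_sub, av_mul_left, hgU, hUU] at h1
    have h3 : av (fun x => g x ^ 2) ≤ L ^ 2 := av_le fun x => by
      rw [← sq_abs]; exact pow_le_pow_left₀ (abs_nonneg _) (hg x) 2
    linarith
  have hstep : ∀ z, (av (fun k : Fin (N + 1) => av (fun x => g (Function.update x k z))) - av g) ^ 2
      ≤ av (fun k => u k z ^ 2) := by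
    intro z
    have : av (fun k : Fin (N + 1) => av (fun x => g (Function.update x k z))) - av g
        = av (fun k => u k z) := by
      simp only [hu]; rw [av_sub, av_const]
    rw [this]; exact av_sq_le _
  refine (av_mono hstep).trans ?_
  rw [av_comm]
  have : av (fun k : Fin (N + 1) => av fun z => u k z ^ 2) = A / (N + 1) := by
    rw [av, hA]; simp
  rw [this]
  exact div_le_div_of_nonneg_right hAL (by positivity)

/-- `L¹` form of `overwrite`. -/
lemma overwrite_abs {I : Type} [Fintype I] [Nonempty I] {N : ℕ} (g : (Fin (N + 1) → I) → ℝ)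
    (L e : ℝ) (he : 0 ≤ e) (hg : ∀ x, |g x| ≤ L) (hN : L ^ 2 ≤ e ^ 2 * (N + 1)) :
    av (fun z : I => |av (fun k : Fin (N + 1) => av (fun x => g (Function.update x k z))) - av g|)
      ≤ e := by
  have h1 := av_sq_le
    (fun z : I => |av (fun k : Fin (N + 1) => av (fun x => g (Function.update x k z))) - av g|)
  simp only [sq_abs] at h1
  have h2 := h1.trans (overwrite g L hg)
  have h3 : L ^ 2 / (N + 1) ≤ e ^ 2 := by
    rw [div_le_iff₀ (by positivity)]; exact hN
  exact le_of_sq_le_sq (h2.trans h3) he |>.trans le_rfl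

end Crest.Agent.R115
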