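import Crest.Agent.R115.Av

/-! Interfaces between the parts of the proof of row 115. -/

set_option autoImplicit false

namespace Crest.Agent.R115

open Finset

/-- The combinatorial core: levels of points, edges given by involutions, and weights `τ`. -/
structure Core (K : ℕ) where
  V : ℕ → Type
  W : ℕ → Type
  I : ℕ → Type
  Y : Type
  fV : ∀ n, Fintype (V n)
  fW : ∀ n, Fintype (W n)
  fI : ∀ n, Fintype (I n)
  fY : Fintype Y
  nV : ∀ n, Nonempty (V n)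
  nW : ∀ n, Nonempty (W n)
  nI : ∀ n, Nonempty (I n)
  pr : ∀ n, V n → Y
  lift : Y → V 0
  pr_lift : ∀ y, pr 0 (lift y) = y
  dd : Y → Y → ℝ
  dd_self : ∀ y, dd y y = 0
  dd_nonneg : ∀ y y', 0 ≤ dd y y'
  dd_symm : ∀ y y', dd y y' = dd y' y
  fl : ∀ n, W n → V n → V n
  fl_fl : ∀ n w v, fl n w (fl n w v) = v
  dd_fl : ∀ n w v y, |dd y (pr n v) - dd y (pr n (fl n w v))| ≤ 1
  top : ∀ n, W n → I n
  av_top : ∀ n (g : I n → ℝ), @av _ (fW n) (fun w => g (top n w)) = @av _ (fI n) g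
  τ : ∀ n, V n → W n → (Σ m, V m × (Fin (m + 1) → I m)) → ℝ
  τ_nonneg : ∀ n v w x, 0 ≤ τ n v w x
  τ_le : ∀ n v w x, τ n v w x ≤ 1
  τ_fl : ∀ n v w x, τ n (fl n w v) w x = 1 - τ n v w x
  u1 : ∀ n v w m v' w' (Xi : Fin (m + 1) → I m) k, Xi k = top m w' →
    |τ n v w ⟨m, v', Xi⟩ - τ n v w ⟨m, fl m w' v', Xi⟩| ≤ 1 / K
  bal : ∀ n v (x : Σ m, V m × (Fin (m + 1) → I m)), x.1 < n → dd (pr x.1 x.2.1) (pr n v) ≤ K →
    @av _ (fW n) (fun w => 1 - τ n v w x) ≤ 1 / K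

attribute [instance] Core.fV Core.fW Core.fI Core.fY Core.nV Core.nW Core.nI

/-- The property of a family of functions `F` on `X` used by the metric frame: a finitely
supported kernel which is `lam`-Lipschitz and almost the identity on `L0` has `J ≤ 4 lam + 1`. -/
def Rigid {X : Type} (J : ℕ) (F : Set (X → ℝ)) (D : ℝ) (L0 : Finset X) : Prop :=
  ∀ (lam : ℝ) (B : Finset X) (c : X → X → ℝ), 0 ≤ lam →
    (∀ x, ∑ b ∈ B, |c x b| ≤ lam * D) →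
    (∀ x x' t, 2 ≤ t → (∀ g ∈ F, |g x - g x'| ≤ t) →
      ∀ g ∈ F, |∑ b ∈ B, c x b * g b - ∑ b ∈ B, c x' b * g b| ≤ lam * t) →
    (∀ a ∈ L0, ∀ g ∈ F, |∑ b ∈ B, c a b * g b - g a| ≤ 1) →
    (J : ℝ) ≤ 4 * lam + 1

/-- One component of the metric space, on the points `ℕ`. -/
structure Comp (J : ℕ) where
  F : Set (ℕ → ℝ)
  D : ℝ
  L0 : Finset ℕ
  J_le : (J : ℝ) ≤ D
  two_le : 2 ≤ D
  bdd : ∀ g ∈ F, ∀ x, 0 ≤ g x ∧ g x ≤ D
  rigid : Rigid J F D L0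

end Crest.Agent.R115
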