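import Crest.Agent.R115.Edge
import Crest.Agent.R115.Defs

/-! The balance estimate and the combinatorial core (row 115). -/

set_option autoImplicit false

namespace Crest.Agent.R115

open Finset

namespace Design

variable {C : ℕ} (G : Design C)

lemma card_ge (j : ℕ) : (j + 1) * C ≤ Fintype.card (G.A j) := by
  induction j with
  | zero => simpa using G.card_zero
  | succ j ih => rw [G.card_succ]; nlinarith

lemma av_raw (j : ℕ) (y v : G.Y j) (S : G.L (j + 1)) (o : Fin C → Bool) :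
    av (fun b => 1 - G.raw j y v (S, o, b))
      = cnt (fun p => y p ≠ v p) / (C * Fintype.card (G.A j)) := by
  unfold raw
  simp only [sub_sub_cancel]
  rw [av_div]
  unfold cnt
  rw [av_sum univ (fun c b => ind (y (c, G.z j (S, o, b) c) ≠ v (c, G.z j (S, o, b) c)))]
  have : ∀ c, av (fun b => ind (y (c, G.z j (S, o, b) c) ≠ v (c, G.z j (S, o, b) c)))
      = (∑ u, ind (y (c, u) ≠ v (c, u))) / Fintype.card (G.A j) := fun c =>
    av_bij _ (G.zbij j S o c) (fun u => ind (y (c, u) ≠ v (c, u)))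
  simp only [this]
  rw [← sum_div, Fintype.sum_prod_type, div_div, mul_comm]

lemma one_sub_rho_le {K : ℕ} (hK : 0 < K) (j : ℕ) (y v : G.Y (j + 1)) (S : G.L (j + 1))
    (i : G.I (j + 1)) {μ : ℝ} (hμ : 40 * K ≤ μ) :
    1 - G.rho K j y v S i
      ≤ 4 / μ ^ 2 * (cnt (fun c => y (c, G.ln _ S c) ≠ v (c, G.ln _ S c)) - μ) ^ 2 := by
  have hk : (1 : ℝ) ≤ K := by exact_mod_cast hK
  have hμ0 : 0 < μ := by linarith
  set X := cnt (fun c => y (c, G.ln _ S c) ≠ v (c, G.ln _ S c)) with hX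
  set X' := cnt (fun c => y (c, G.ln _ S c) ≠ v (c, G.ln _ S c) ∧ G.ln _ S c ≠ G.z _ i c) with hX'
  have h1 : X ≤ X' + 4 := by
    refine le_trans (cnt_le_add (R := fun c => G.ln _ S c = G.z _ i c) fun c hc => ?_)
      (add_le_add_right (G.lz _ S i) _)
    by_cases h : G.ln _ S c = G.z _ i c
    · exact Or.inr h
    · exact Or.inl ⟨hc, h⟩
  by_cases h : 16 * K ≤ X'
  · have : G.rho K j y v S i = 1 := min_eq_left (by rw [le_div_iff₀ (by linarith)]; linarith)
    rw [this, sub_self]; positivity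
  · have h2 := (G.rho_mem K j y v S i).1
    have h3 : μ / 2 ≤ μ - X := by linarith
    have h4 : 1 ≤ 4 / μ ^ 2 * (X - μ) ^ 2 := by
      rw [div_mul_eq_mul_div, le_div_iff₀ (by positivity)]
      nlinarith
    linarith

lemma one_sub_tt_le (K m : ℕ) (y v : ∀ j, G.Y j) (ι : ∀ j, G.I j) (Xi : Fin (m + 1) → G.I m)
    (j : ℕ) : 1 - G.tt K m y v ι Xi j
      ≤ (1 - G.raw j (y j) (v j) (ι j)) + (1 - G.rr K m y v ι Xi j) / 2 := by
  obtain ⟨a0, a1⟩ := G.raw_mem j (y j) (v j) (ι j)
  obtain ⟨b0, b1⟩ := G.rr_mem K m y v ι Xi j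
  unfold tt
  nlinarith

/-- The balance estimate for any random choice of directions with uniform free parts. -/
lemma balance {K : ℕ} (hK : 0 < K) (hC : C = 160 * K ^ 2) {Ω : Type} [Fintype Ω] [Nonempty Ω]
    (m : ℕ) (y v : ∀ j, G.Y j) (ι : Ω → ∀ j, G.I j) (Xi : Fin (m + 1) → G.I m)
    (H1 : ∀ j, j ≤ m → ∀ (h : G.I j → ℝ) (θ : ℝ), (∀ S o, av (fun b => h (S, o, b)) ≤ θ) →
      av (fun w => h (ι w j)) ≤ θ)
    (H2 : ∀ j, j < m → ∀ g : G.L (j + 1) → ℝ, av (fun w => g (ι w j).1) = av g)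
    (h0 : cnt (fun p => y 0 p ≠ v 0 p) / C ≤ K) :
    av (fun w => 1 - G.tau K m y v (ι w) Xi) ≤ 1 / K := by
  have hk : (1 : ℝ) ≤ K := by exact_mod_cast hK
  have hC0 : 0 < C := by rw [hC]; positivity
  have hc : (C : ℝ) = 160 * K ^ 2 := by rw [hC]; push_cast; ring
  have hc0 : (0 : ℝ) < C := by exact_mod_cast hC0
  have hq0 : (C : ℝ) ≤ Fintype.card (G.A 0) := by exact_mod_cast G.card_zero
  set a0 : ℕ → ℝ := fun i =>
    ramp (4 * K * cnt (fun p => y i p ≠ v i p) / (C * Fintype.card (G.A i))) with ha0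
  have step1 : ∀ w, 1 - G.tau K m y v (ι w) Xi
      ≤ T (fun i => 1 - G.tt K m y v (ι w) Xi i) a0 m 0 + 1 / (4 * K) := by
    intro w
    have e1 : T (fun i => 1 - G.tt K m y v (ι w) Xi i) (fun i => G.aa K i (y i) (v i) (ι w i)) m 0
        = 1 - G.tau K m y v (ι w) Xi := T_anti m 0 (fun _ _ => rfl) (fun _ _ => rfl)
    have e2 := T_lip (κ := 0) (g := fun j => 4 * K / Fintype.card (G.A j))
      (t := fun i => 1 - G.tt K m y v (ι w) Xi i) (t' := fun i => 1 - G.tt K m y v (ι w) Xi i)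
      (a := fun i => G.aa K i (y i) (v i) (ι w i)) (a' := a0)
      (fun j => by constructor <;> linarith [G.tt_mem K m y v (ι w) Xi j])
      (fun _ => ramp_mem _) (fun _ => ramp_mem _) (fun j => by positivity) (G.gam_succ K) m 0
      (fun i _ => by simp)
      (fun i _ => G.aa_lip hC0 K i (G.z i (ι w i)) fun p hp => and_iff_left hp)
    have e3 : 4 * (K : ℝ) / Fintype.card (G.A 0) ≤ 1 / (4 * K) := by
      rw [div_le_div_iff₀ (G.card_pos 0) (by positivity)]
      nlinarith
    rw [e1] at e2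
    linarith [(abs_le.1 e2).2]
  refine (av_mono step1).trans ?_
  rw [av_add, av_const, av_T (fun w i => 1 - G.tt K m y v (ι w) Xi i) a0 m 0]
  have hraw : ∀ j, j ≤ m →
      cnt (fun p => y j p ≠ v j p) / (C * Fintype.card (G.A j)) ≤ 1 / (2 * K) →
      av (fun w => 1 - G.raw j (y j) (v j) (ι w j)) ≤ 1 / (2 * K) := fun j hj h =>
    H1 j hj (fun i => 1 - G.raw j (y j) (v j) i) _ fun S o => (G.av_raw j _ _ S o).trans_le h
  have hsplit : ∀ j, j ≤ m →
      cnt (fun p => y j p ≠ v j p) / (C * Fintype.card (G.A j)) ≤ 1 / (2 * K) →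
      av (fun w => 1 - G.rr K m y v (ι w) Xi j) ≤ 1 / (2 * K) →
      av (fun w => 1 - G.tt K m y v (ι w) Xi j) ≤ 3 / (4 * K) := by
    intro j hj h1 h2
    refine (av_mono fun w => G.one_sub_tt_le K m y v (ι w) Xi j).trans ?_
    rw [av_add, av_div]
    have := hraw j hj h1
    have e : (3 : ℝ) / (4 * K) = 1 / (2 * K) + 1 / (2 * K) / 2 := by field_simp; norm_num
    linarith
  have main := T_le (d := fun i => av (fun w => 1 - G.tt K m y v (ι w) Xi i)) (a := a0)
    (θ := 3 / (4 * K)) (m := m)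
    (fun j => cnt (fun p => y j p ≠ v j p) / (C * Fintype.card (G.A j)) ≤ 1 / (2 * K))
    (fun _ => ramp_mem _) ?_ ?_ ?_ m 0 (zero_add m) ?_
  · have e : (1 : ℝ) / K = 3 / (4 * K) + 1 / (4 * K) := by field_simp; norm_num
    linarith
  · intro i hi
    have := lt_two_of_ramp_lt hi
    have hq := G.card_pos i
    rw [div_lt_iff₀ (by positivity)] at this
    rw [div_le_div_iff₀ (by positivity) (by positivity)]
    linarith
  · intro j hj hS ha
    refine hsplit j hj.le hS ?_
    have h1 := one_lt_of_ramp_pos ha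
    have hq := G.card_pos (j + 1)
    set μ := cnt (fun p => y (j + 1) p ≠ v (j + 1) p) / Fintype.card (G.A (j + 1)) with hμ
    have hμ1 : 40 * K ≤ μ := by
      rw [lt_div_iff₀ (by positivity), hc] at h1
      rw [hμ, le_div_iff₀ hq]
      have : (0 : ℝ) < 4 * K := by positivity
      refine le_of_mul_le_mul_left ?_ this
      nlinarith
    have hμ0 : 0 < μ := by linarith
    have h2 : ∀ w, 1 - G.rr K m y v (ι w) Xi j ≤ 4 / μ ^ 2 *
        (cnt (fun c => y (j + 1) (c, G.ln _ (ι w j).1 c) ≠ v (j + 1) (c, G.ln _ (ι w j).1 c))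
          - μ) ^ 2 := by
      intro w
      unfold rr
      rw [if_pos hj]
      exact G.one_sub_rho_le hK j _ _ _ _ hμ1
    refine (av_mono h2).trans ?_
    rw [av_mul_left, H2 j hj (fun S =>
      (cnt (fun c => y (j + 1) (c, G.ln _ S c) ≠ v (j + 1) (c, G.ln _ S c)) - μ) ^ 2)]
    have h3 := G.cheb (j + 1) (fun p => y (j + 1) p ≠ v (j + 1) p)
    refine (mul_le_mul_of_nonneg_left h3 (by positivity)).trans ?_
    rw [← hμ, div_mul_eq_mul_div, div_le_div_iff₀ (by positivity) (by positivity)]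
    nlinarith
  · intro hS
    refine hsplit m le_rfl hS ?_
    unfold rr
    simp only [lt_irrefl, if_false, sub_sub_cancel]
    refine H1 m le_rfl (fun i => ind (∃ k, Xi k = i)) _ fun S o => ?_
    rw [av_ind]
    have h1 : cnt (fun b => ∃ k, Xi k = (S, o, b)) ≤ m + 1 := by
      refine (cnt_exists_le (fun k b => Xi k = (S, o, b))).trans ?_
      have : ∀ k, cnt (fun b => Xi k = (S, o, b)) ≤ 1 := fun k =>
        (cnt_mono fun b hb => by rw [hb]).trans_eq (cnt_single (Xi k).2.2)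
      refine (sum_le_sum fun k _ => this k).trans ?_
      simp
    have h2 : ((m : ℝ) + 1) * C ≤ Fintype.card (G.A m) := by exact_mod_cast G.card_ge m
    rw [div_le_div_iff₀ (G.card_pos m) (by positivity)]
    have h3 : 2 * (K : ℝ) ≤ C := by nlinarith
    have h4 : (0 : ℝ) ≤ m + 1 := by positivity
    nlinarith
  · rw [div_le_iff₀ hc0] at h0
    have hq := G.card_pos 0
    rw [div_le_div_iff₀ (by positivity) (by positivity)]
    nlinarith

lemma av_iota {n : ℕ} (v : ∀ j, G.Y j) {j : ℕ} (hj : j < n) (h : G.I j → ℝ) (θ : ℝ)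
    (hh : ∀ S o, av (fun b => h (S, o, b)) ≤ θ) :
    av (fun w : ∀ i : Fin (n + 1), G.I i => h (G.iota n v (ext w) j)) ≤ θ := by
  have hj' : j < n + 1 := by omega
  rw [av_resample (A := fun i : Fin (n + 1) => G.I i) ⟨j, hj'⟩]
  refine av_le fun w => ?_
  have : ∀ a : G.I j, G.iota n v (ext (β := G.I) (Function.update w ⟨j, hj'⟩ a)) j
      = (a.1, G.oo j (v (j + 1)) a.1 (G.iota n v (ext w) (j + 1)), a.2.2) := by
    intro a
    rw [G.iota_of_lt _ _ hj, ext_update_self,
      G.iota_congr (v := v) (w := ext w) _ (j + 1) rfl (fun _ _ _ _ _ => rfl)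
        (fun i hi => ext_update_ne w ⟨j, hj'⟩ a (by simp; omega))]
  refine (av_congr fun a => congrArg h (this a)).trans_le ?_
  rw [av_prod]
  refine av_le fun S => ?_
  rw [av_prod]
  exact av_le fun o => hh S (G.oo j (v (j + 1)) S (G.iota n v (ext w) (j + 1)))

lemma av_iota_fst {n : ℕ} (v : ∀ j, G.Y j) {j : ℕ} (hj : j < n) (g : G.L (j + 1) → ℝ) :
    av (fun w : ∀ i : Fin (n + 1), G.I i => g (G.iota n v (ext w) j).1) = av g := by
  have hj' : j < n + 1 := by omega
  have : ∀ w : ∀ i : Fin (n + 1), G.I i, (G.iota n v (ext w) j).1 = (w ⟨j, hj'⟩).1 := by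
    intro w
    rw [G.iota_of_lt _ _ hj, ext_of_lt _ hj']
  simp only [this]
  rw [av_coord (A := fun i : Fin (n + 1) => G.I i) ⟨j, hj'⟩ (fun a => g a.1), av_prod]
  simp only [av_const]

/-- The other end of an edge. -/
noncomputable def fl (n : ℕ) (w : ∀ i : Fin (n + 1), G.I i) (v : ∀ i : Fin (n + 1), G.Y i) :
    ∀ i : Fin (n + 1), G.Y i :=
  fun i => G.flp (v i) (G.z i (G.iota n (ext v) (ext w) i))

lemma ext_fl {n : ℕ} (w : ∀ i : Fin (n + 1), G.I i) (v : ∀ i : Fin (n + 1), G.Y i) {j : ℕ}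
    (hj : j ≤ n) :
    ext (G.fl n w v) j = G.flp (ext v j) (G.z j (G.iota n (ext v) (ext w) j)) := by
  rw [ext_of_lt _ (Nat.lt_succ_of_le hj), ext_of_lt _ (Nat.lt_succ_of_le hj)]
  rfl

lemma iota_fl {n : ℕ} (w : ∀ i : Fin (n + 1), G.I i) (v : ∀ i : Fin (n + 1), G.Y i) :
    G.iota n (ext (G.fl n w v)) (ext w) = G.iota n (ext v) (ext w) := by
  funext j
  refine G.iota_congr _ j rfl (fun i _ hi p hp => ?_) (fun _ _ => rfl)
  rw [G.ext_fl w v hi, G.flp_of_ne _ _ hp]

end Design

theorem exists_core {K : ℕ} (hK : 0 < K) : Nonempty (Core K) := by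
  classical
  obtain ⟨G⟩ := exists_design (160 * K ^ 2)
  have hC0 : 0 < 160 * K ^ 2 := by positivity
  have hk : (1 : ℝ) ≤ K := by exact_mod_cast hK
  refine ⟨{
    V := fun n => ∀ i : Fin (n + 1), G.Y i
    W := fun n => ∀ i : Fin (n + 1), G.I i
    I := G.I
    Y := G.Y 0
    fV := fun n => inferInstance
    fW := fun n => inferInstance
    fI := fun n => inferInstance
    fY := inferInstance
    nV := fun n => inferInstance
    nW := fun n => inferInstance
    nI := fun n => inferInstance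
    pr := fun n v => ext (β := G.Y) v 0
    lift := fun y => Function.update (fun _ => Classical.arbitrary _) ⟨0, Nat.one_pos⟩ y
    pr_lift := fun y => ext_update_self (β := G.Y) _ _ y
    dd := fun y y' => cnt (fun p => y p ≠ y' p) / (160 * K ^ 2 : ℕ)
    dd_self := fun y => by rw [cnt_false (fun p h => h rfl), zero_div]
    dd_nonneg := fun y y' => div_nonneg (cnt_nonneg _) (Nat.cast_nonneg _)
    dd_symm := fun y y' => by rw [cnt_congr (Q := fun p => y' p ≠ y p) fun p => ne_comm]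
    fl := G.fl
    fl_fl := ?_
    dd_fl := ?_
    top := fun n w => w (Fin.last n)
    av_top := fun n g => av_coord (A := fun i : Fin (n + 1) => G.I i) (Fin.last n) g
    τ := fun n v w x => if x.1 < n then
      G.tau K x.1 (ext x.2.1) (ext v) (G.iota n (ext v) (ext w)) x.2.2 else 1 / 2
    τ_nonneg := ?_
    τ_le := ?_
    τ_fl := ?_
    u1 := ?_
    bal := ?_ }⟩
  · intro n w v
    funext i
    change G.flp (G.fl n w v i) (G.z i (G.iota n (ext (G.fl n w v)) (ext w) i)) = v i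
    rw [G.iota_fl]
    exact G.flp_flp _ _
  · intro n w v y
    have hc : (0 : ℝ) < (160 * K ^ 2 : ℕ) := by exact_mod_cast hC0
    rw [← sub_div, abs_div, abs_of_pos hc, div_le_one hc, G.ext_fl w v (Nat.zero_le n)]
    refine le_trans (abs_cnt_sub (R := fun p : Fin (160 * K ^ 2) × G.A 0 =>
      p.2 = G.z 0 (G.iota n (ext v) (ext w) 0) p.1) fun p hp => ?_) ?_
    · rw [G.flp_of_ne _ _ hp]
    · rw [cnt_graph, Fintype.card_fin]
  · intro n v w x
    split_ifs
    · exact (G.tau_mem ..).1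
    · norm_num
  · intro n v w x
    split_ifs
    · exact (G.tau_mem ..).2
    · norm_num
  · intro n v w x
    split_ifs with h
    · rw [G.iota_fl]
      exact G.tau_flip hC0 K _ _ _ _ _ _ fun j hj => G.ext_fl w v (by omega)
    · norm_num
  · intro n v w m v' w' Xi k hk'
    simp only
    split_ifs with h
    · refine (G.tau_lip hC0 hK m _ _ _ _ (G.iota m (ext v') (ext w')) Xi
        (fun j hj => G.iota_cons _ _ (by omega)) (fun j hj => G.iota_cons _ _ hj)
        (fun j hj => G.ext_fl w' v' hj) ⟨k, ?_⟩).trans ?_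
      · rw [G.iota_of_le _ _ le_rfl, ext_of_lt _ (Nat.lt_succ_self m)]; exact hk'
      · have hq0 : ((160 * K ^ 2 : ℕ) : ℝ) ≤ Fintype.card (G.A 0) := by
          exact_mod_cast G.card_zero
        push_cast at hq0 ⊢
        have e1 : (4 : ℝ) / (160 * K ^ 2) ≤ 1 / (4 * K) := by
          rw [div_le_div_iff₀ (by positivity) (by positivity)]; nlinarith
        have e3 : 4 * (K : ℝ) / Fintype.card (G.A 0) ≤ 1 / (4 * K) := by
          rw [div_le_div_iff₀ (G.card_pos 0) (by positivity)]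
          nlinarith
        have e : (1 : ℝ) / K = 4 * (1 / (4 * K)) := by field_simp
        have : (0 : ℝ) ≤ 1 / (4 * K) := by positivity
        linarith
    · simp
  · intro n v x hx hd
    simp only [if_pos hx]
    exact G.balance hK rfl x.1 _ _ (fun w => G.iota n (ext v) (ext w)) _
      (fun j hj h θ hh => G.av_iota _ (by omega) h θ hh)
      (fun j hj g => G.av_iota_fst _ (by omega) g) hd

end Crest.Agent.R115
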