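import Crest.Agent.R115.Av

/-! Counting, and the design of lines and quartic directions over finite fields (row 115). -/

set_option autoImplicit false

namespace Crest.Agent.R115

open Finset

open Classical in
/-- Real indicator of a proposition. -/
noncomputable def ind (p : Prop) : ℝ := if p then 1 else 0

lemma ind_of {p : Prop} (h : p) : ind p = 1 := by simp [ind, h]
lemma ind_of_not {p : Prop} (h : ¬ p) : ind p = 0 := by simp [ind, h]
lemma ind_nonneg (p : Prop) : 0 ≤ ind p := by unfold ind; split_ifs <;> norm_num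
lemma ind_le_one (p : Prop) : ind p ≤ 1 := by unfold ind; split_ifs <;> norm_num
lemma ind_not (p : Prop) : ind (¬ p) = 1 - ind p := by
  by_cases h : p <;> simp [ind, h]
lemma ind_congr {p q : Prop} (h : p ↔ q) : ind p = ind q := by rw [propext h]
lemma ind_sq (p : Prop) : ind p ^ 2 = ind p := by by_cases h : p <;> simp [ind, h]
lemma ind_le_add {p q r : Prop} (h : p → q ∨ r) : ind p ≤ ind q + ind r := by
  by_cases hp : p
  · rw [ind_of hp]
    rcases h hp with h | h
    · rw [ind_of h]; linarith [ind_nonneg r]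
    · rw [ind_of h]; linarith [ind_nonneg q]
  · rw [ind_of_not hp]; linarith [ind_nonneg q, ind_nonneg r]

/-- The number of points with a property, as a real number. -/
noncomputable def cnt {α : Type} [Fintype α] (P : α → Prop) : ℝ := ∑ a, ind (P a)

section
variable {α β : Type} [Fintype α] [Fintype β]

lemma cnt_nonneg (P : α → Prop) : 0 ≤ cnt P := sum_nonneg fun _ _ => ind_nonneg _

lemma cnt_le_card (P : α → Prop) : cnt P ≤ Fintype.card α := by
  have : cnt P ≤ ∑ _a : α, (1 : ℝ) := sum_le_sum fun _ _ => ind_le_one _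
  simpa using this

lemma cnt_congr {P Q : α → Prop} (h : ∀ a, P a ↔ Q a) : cnt P = cnt Q :=
  sum_congr rfl fun a _ => ind_congr (h a)

lemma cnt_false {P : α → Prop} (h : ∀ a, ¬ P a) : cnt P = 0 :=
  sum_eq_zero fun a _ => ind_of_not (h a)

lemma cnt_not (P : α → Prop) : cnt (fun a => ¬ P a) = Fintype.card α - cnt P := by
  simp only [cnt, ind_not, sum_sub_distrib]; simp

lemma cnt_le_add {P Q R : α → Prop} (h : ∀ a, P a → Q a ∨ R a) : cnt P ≤ cnt Q + cnt R := by
  simp only [cnt, ← sum_add_distrib]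
  exact sum_le_sum fun a _ => ind_le_add (h a)

lemma cnt_mono {P Q : α → Prop} (h : ∀ a, P a → Q a) : cnt P ≤ cnt Q := by
  have := cnt_le_add (P := P) (Q := Q) (R := fun _ => False) fun a ha => Or.inl (h a ha)
  rwa [cnt_false (P := fun _ : α => False) (fun _ h => h), add_zero] at this

lemma abs_cnt_sub {P Q R : α → Prop} (h : ∀ a, ¬ R a → (P a ↔ Q a)) :
    |cnt P - cnt Q| ≤ cnt R := by
  have h1 : cnt P ≤ cnt Q + cnt R := cnt_le_add fun a ha => by
    by_cases hr : R a
    · exact Or.inr hr
    · exact Or.inl ((h a hr).1 ha)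
  have h2 : cnt Q ≤ cnt P + cnt R := cnt_le_add fun a ha => by
    by_cases hr : R a
    · exact Or.inr hr
    · exact Or.inl ((h a hr).2 ha)
  exact abs_le.2 ⟨by linarith, by linarith⟩

lemma cnt_prod (P : α × β → Prop) : cnt P = ∑ a, cnt (fun b => P (a, b)) := by
  simp only [cnt, Fintype.sum_prod_type]

lemma cnt_eq_card (P : α → Prop) [DecidablePred P] : cnt P = ((univ.filter P).card : ℝ) := by
  simp only [cnt, card_filter, Nat.cast_sum]
  refine sum_congr rfl fun a _ => ?_
  by_cases h : P a <;> simp [ind, h]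

lemma cnt_single (a : α) : cnt (fun b => b = a) = 1 := by
  unfold cnt
  rw [sum_eq_single a]
  · exact ind_of rfl
  · intro b _ hb; exact ind_of_not hb
  · intro h; exact absurd (mem_univ a) h

lemma cnt_graph (g : α → β) : cnt (fun p : α × β => p.2 = g p.1) = Fintype.card α := by
  rw [cnt_prod]; simp [cnt_single]

lemma av_ind (P : α → Prop) : av (fun a => ind (P a)) = cnt P / Fintype.card α := rfl

lemma cnt_exists_le {ι : Type} [Fintype ι] (P : ι → α → Prop) :
    cnt (fun a => ∃ i, P i a) ≤ ∑ i, cnt (P i) := by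
  simp only [cnt]
  rw [sum_comm]
  refine sum_le_sum fun a _ => ?_
  by_cases h : ∃ i, P i a
  · obtain ⟨i, hi⟩ := h
    rw [ind_of ⟨i, hi⟩, ← ind_of hi]
    exact single_le_sum (f := fun i => ind (P i a)) (fun _ _ => ind_nonneg _) (mem_univ i)
  · rw [ind_of_not h]; exact sum_nonneg fun _ _ => ind_nonneg _

end

/-- Lines and directions on the ground sets `Fin C × A j`. -/
structure Design (C : ℕ) where
  A : ℕ → Type
  L : ℕ → Type
  fA : ∀ j, Fintype (A j)
  fL : ∀ j, Fintype (L j)
  nA : ∀ j, Nonempty (A j)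
  nL : ∀ j, Nonempty (L j)
  ln : ∀ j, L j → Fin C → A j
  z : ∀ j, L (j + 1) × (Fin C → Bool) × A j → Fin C → A j
  card_zero : C ≤ Fintype.card (A 0)
  card_succ : ∀ j, Fintype.card (A (j + 1)) = 2 * Fintype.card (A j)
  cheb : ∀ j (P : Fin C × A j → Prop),
    av (fun S : L j => (cnt (fun c => P (c, ln j S c)) - cnt P / Fintype.card (A j)) ^ 2)
      ≤ cnt P / Fintype.card (A j)
  zz : ∀ j i i', i ≠ i' → cnt (fun c => z j i c = z j i' c) ≤ 4
  lz : ∀ j S i, cnt (fun c => ln j S c = z j i c) ≤ 4
  zbij : ∀ j S o c, Function.Bijective fun b => z j (S, o, b) c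

attribute [instance] Design.fA Design.fL Design.nA Design.nL

lemma quartic_roots {F : Type} [Field F] {C : ℕ} (e : Fin C → F) (he : Function.Injective e)
    (a4 a3 a2 a1 a0 : F) (h : ¬ (a4 = 0 ∧ a3 = 0 ∧ a2 = 0 ∧ a1 = 0 ∧ a0 = 0)) :
    cnt (fun c => a4 * e c ^ 4 + a3 * e c ^ 3 + a2 * e c ^ 2 + a1 * e c + a0 = 0) ≤ 4 := by
  classical
  set p : Polynomial F := Polynomial.C a4 * Polynomial.X ^ 4 + Polynomial.C a3 * Polynomial.X ^ 3
    + Polynomial.C a2 * Polynomial.X ^ 2 + Polynomial.C a1 * Polynomial.X + Polynomial.C a0 with hp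
  have hdeg : p.natDegree ≤ 4 := by
    rw [hp]; compute_degree
  have hp0 : p ≠ 0 := by
    intro h0
    apply h
    have c4 := congrArg (fun q => Polynomial.coeff q 4) h0
    have c3 := congrArg (fun q => Polynomial.coeff q 3) h0
    have c2 := congrArg (fun q => Polynomial.coeff q 2) h0
    have c1 := congrArg (fun q => Polynomial.coeff q 1) h0
    have c0 := congrArg (fun q => Polynomial.coeff q 0) h0
    simp [hp, Polynomial.coeff_X, Polynomial.coeff_C, Polynomial.coeff_X_pow] at c4 c3 c2 c1 c0
    exact ⟨c4, c3, c2, c1, c0⟩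
  rw [cnt_eq_card]
  set Z := univ.filter
    (fun c => a4 * e c ^ 4 + a3 * e c ^ 3 + a2 * e c ^ 2 + a1 * e c + a0 = 0) with hZ
  have h1 : (Z.image e).card ≤ p.natDegree := by
    apply Polynomial.card_le_degree_of_subset_roots
    intro x hx
    rw [Finset.mem_val, mem_image] at hx
    obtain ⟨c, hc, rfl⟩ := hx
    rw [Polynomial.mem_roots hp0, Polynomial.IsRoot.def]
    simpa [hp] using (mem_filter.1 hc).2
  rw [card_image_of_injective _ he] at h1
  exact_mod_cast h1.trans hdeg

lemma line_cheb {F : Type} [Field F] [Fintype F] {C : ℕ} (e : Fin C → F)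
    (he : Function.Injective e) (P : Fin C × F → Prop) :
    av (fun S : F × F => (cnt (fun c => P (c, S.1 * e c + S.2)) - cnt P / Fintype.card F) ^ 2)
      ≤ cnt P / Fintype.card F := by
  classical
  set p : Fin C → ℝ := fun c => av (fun u => ind (P (c, u))) with hp
  have hμ : cnt P / Fintype.card F = ∑ c, p c := by
    rw [cnt_prod, sum_div]; rfl
  have h0 : ∀ c, av (fun u => ind (P (c, u)) - p c) = 0 := by
    intro c; rw [av_sub, av_const, sub_self]
  have h1 : (fun S : F × F => (cnt (fun c => P (c, S.1 * e c + S.2)) - cnt P / Fintype.card F) ^ 2)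
      = fun S => (∑ c, (ind (P (c, S.1 * e c + S.2)) - p c)) ^ 2 := by
    funext S; rw [hμ, sum_sub_distrib]; rfl
  rw [h1, av_sq_sum univ (fun c (S : F × F) => ind (P (c, S.1 * e c + S.2)) - p c), hμ]
  · refine sum_le_sum fun c _ => ?_
    rw [av_prod]
    refine av_le fun α => ?_
    have hb : Function.Bijective (fun β : F => α * e c + β) := (Equiv.addLeft (α * e c)).bijective
    refine (av_bij _ hb (fun u => (ind (P (c, u)) - p c) ^ 2)).trans_le ?_
    have : (fun u => (ind (P (c, u)) - p c) ^ 2)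
        = fun u => (ind (P (c, u)) - 2 * p c * ind (P (c, u))) + p c ^ 2 := by
      funext u; rw [sub_sq, ind_sq]; ring
    rw [this, av_add, av_sub, av_mul_left, av_const]
    change p c - 2 * p c * p c + p c ^ 2 ≤ p c
    nlinarith [sq_nonneg (p c)]
  · intro c _ c' _ hcc
    have hne : e c - e c' ≠ 0 := sub_ne_zero.2 fun h => hcc (he h)
    have hb : Function.Bijective (fun S : F × F => (S.1 * e c + S.2, S.1 * e c' + S.2)) := by
      refine Finite.injective_iff_bijective.1 ?_
      rintro ⟨a, b⟩ ⟨a', b'⟩ h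
      simp only [Prod.mk.injEq] at h ⊢
      have : (a - a') * (e c - e c') = 0 := by linear_combination h.1 - h.2
      have ha : a = a' := sub_eq_zero.1 ((mul_eq_zero.1 this).resolve_right hne)
      subst ha
      exact ⟨rfl, by linear_combination h.1⟩
    refine (av_bij _ hb
      (fun S => (ind (P (c, S.1)) - p c) * (ind (P (c', S.2)) - p c'))).trans ?_
    rw [av_prod]
    simp only [av_mul_left, h0, mul_zero, av_zero]

theorem exists_design (C : ℕ) : Nonempty (Design C) := by
  classical
  let F : ℕ → Type := fun j => GaloisField 2 (C + 2 + j)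
  let fF : ∀ j, Fintype (F j) := fun j => Fintype.ofFinite _
  have hcard : ∀ j, Fintype.card (F j) = 2 ^ (C + 2 + j) := fun j => by
    rw [← Nat.card_eq_fintype_card]; exact GaloisField.card 2 _ (by omega)
  have hC : ∀ j, C ≤ Fintype.card (F j) := fun j => by
    rw [hcard]
    exact (Nat.lt_two_pow_self (n := C)).le.trans (Nat.pow_le_pow_right (by norm_num) (by omega))
  have he : ∀ j, Nonempty (Fin C ↪ F j) := fun j =>
    Function.Embedding.nonempty_of_card_le (by simpa using hC j)
  have hi : ∀ j, Nonempty ((F (j + 1) × F (j + 1)) × (Fin C → Bool) ↪ F j × F j × F j) := fun j =>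
    Function.Embedding.nonempty_of_card_le (by
      simp only [Fintype.card_prod, hcard, Fintype.card_fun, Fintype.card_bool, Fintype.card_fin,
        ← pow_add]
      exact Nat.pow_le_pow_right (by norm_num) (by omega))
  let e : ∀ j, Fin C ↪ F j := fun j => (he j).some
  let k : ∀ j, (F (j + 1) × F (j + 1)) × (Fin C → Bool) ↪ F j × F j × F j := fun j => (hi j).some
  refine ⟨{
    A := F
    L := fun j => F j × F j
    fA := fF
    fL := fun j => inferInstance
    nA := fun j => ⟨0⟩
    nL := fun j => ⟨0⟩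
    ln := fun j S c => S.1 * e j c + S.2
    z := fun j i c => e j c ^ 4 + (k j (i.1, i.2.1)).1 * e j c ^ 3
      + (k j (i.1, i.2.1)).2.1 * e j c ^ 2 + (k j (i.1, i.2.1)).2.2 * e j c + i.2.2
    card_zero := hC 0
    card_succ := fun j => by rw [hcard, hcard, ← add_assoc, pow_succ, mul_comm]
    cheb := fun j P => line_cheb (e j) (e j).injective P
    zz := ?_
    lz := ?_
    zbij := fun j S o c => (Equiv.addLeft (e j c ^ 4 + (k j (S, o)).1 * e j c ^ 3
      + (k j (S, o)).2.1 * e j c ^ 2 + (k j (S, o)).2.2 * e j c)).bijective }⟩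
  · rintro j ⟨S, o, b⟩ ⟨S', o', b'⟩ hne
    refine le_trans (cnt_mono fun c hc => ?_) (quartic_roots (e j) (e j).injective 0
      ((k j (S, o)).1 - (k j (S', o')).1) ((k j (S, o)).2.1 - (k j (S', o')).2.1)
      ((k j (S, o)).2.2 - (k j (S', o')).2.2) (b - b') ?_)
    · linear_combination hc
    · rintro ⟨-, h3, h2, h1, h0⟩
      apply hne
      have : k j (S, o) = k j (S', o') :=
        Prod.ext (sub_eq_zero.1 h3) (Prod.ext (sub_eq_zero.1 h2) (sub_eq_zero.1 h1))
      have := (k j).injective this
      simp only [Prod.mk.injEq] at this ⊢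
      exact ⟨this.1, this.2, sub_eq_zero.1 h0⟩
  · rintro j ⟨α, β⟩ ⟨S, o, b⟩
    refine le_trans (cnt_mono fun c hc => ?_) (quartic_roots (e j) (e j).injective 1
      ((k j (S, o)).1) ((k j (S, o)).2.1) ((k j (S, o)).2.2 - α) (b - β) ?_)
    · linear_combination -hc
    · rintro ⟨h, -⟩; exact one_ne_zero h

end Crest.Agent.R115
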