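import Crest.Agent.R115.Av

/-! The recursive weight `T` (row 115). -/

set_option autoImplicit false

namespace Crest.Agent.R115

/-- `T t a c j` is the weight at level `j` when the top level is `j + c`. -/
noncomputable def T (t a : ℕ → ℝ) : ℕ → ℕ → ℝ
  | 0, j => t j
  | c + 1, j => a (j + 1) * t j + (1 - a (j + 1)) * T t a c (j + 1)

lemma T_mem {t a : ℕ → ℝ} (ht : ∀ j, 0 ≤ t j ∧ t j ≤ 1) (ha : ∀ j, 0 ≤ a j ∧ a j ≤ 1) :
    ∀ c j, 0 ≤ T t a c j ∧ T t a c j ≤ 1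
  | 0, j => ht j
  | c + 1, j => by
    obtain ⟨h0, h1⟩ := T_mem ht ha c (j + 1)
    obtain ⟨a0, a1⟩ := ha (j + 1)
    obtain ⟨t0, t1⟩ := ht j
    simp only [T]
    constructor <;> nlinarith

lemma T_anti {t t' a a' : ℕ → ℝ} : ∀ c j, (∀ i, i ≤ j + c → t' i = 1 - t i) →
    (∀ i, i ≤ j + c → a' i = a i) → T t' a' c j = 1 - T t a c j
  | 0, j, ht, _ => ht j le_rfl
  | c + 1, j, ht, ha => by
    simp only [T]
    rw [T_anti c (j + 1) (fun i hi => ht i (by omega)) (fun i hi => ha i (by omega)),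
      ht j (by omega), ha (j + 1) (by omega)]
    ring

lemma T_lip {t t' a a' g : ℕ → ℝ} {κ : ℝ} (ht : ∀ j, 0 ≤ t j ∧ t j ≤ 1)
    (ha : ∀ j, 0 ≤ a j ∧ a j ≤ 1) (ha' : ∀ j, 0 ≤ a' j ∧ a' j ≤ 1)
    (hg0 : ∀ j, 0 ≤ g j) (hg : ∀ j, 2 * g (j + 1) ≤ g j) :
    ∀ c j, (∀ i, i ≤ j + c → |t i - t' i| ≤ κ) → (∀ i, i ≤ j + c → |a i - a' i| ≤ g i) →
      |T t a c j - T t' a' c j| ≤ κ + g j
  | 0, j, h1, _ => by
    have := h1 j le_rfl
    have := hg0 j
    simp only [T]; linarith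
  | c + 1, j, h1, h2 => by
    have ih := T_lip ht ha ha' hg0 hg c (j + 1) (fun i hi => h1 i (by omega))
      (fun i hi => h2 i (by omega))
    obtain ⟨u0, u1⟩ := T_mem ht ha c (j + 1)
    obtain ⟨a0, a1⟩ := ha' (j + 1)
    obtain ⟨t0, t1⟩ := ht j
    have e1 := h1 j (by omega)
    have e2 := h2 (j + 1) (by omega)
    have e3 := hg j
    have e4 := hg0 (j + 1)
    simp only [T]
    set u := T t a c (j + 1)
    set u' := T t' a' c (j + 1)
    have : a (j + 1) * t j + (1 - a (j + 1)) * u - (a' (j + 1) * t' j + (1 - a' (j + 1)) * u')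
        = (a (j + 1) - a' (j + 1)) * (t j - u) + a' (j + 1) * (t j - t' j)
          + (1 - a' (j + 1)) * (u - u') := by ring
    rw [this]
    have b1 : |(a (j + 1) - a' (j + 1)) * (t j - u)| ≤ g (j + 1) := by
      rw [abs_mul]
      have : |t j - u| ≤ 1 := abs_le.2 ⟨by linarith, by linarith⟩
      nlinarith [abs_nonneg (a (j + 1) - a' (j + 1)), abs_nonneg (t j - u)]
    have b2 : |a' (j + 1) * (t j - t' j)| ≤ a' (j + 1) * κ := by
      rw [abs_mul, abs_of_nonneg a0]; exact mul_le_mul_of_nonneg_left e1 a0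
    have b3 : |(1 - a' (j + 1)) * (u - u')| ≤ (1 - a' (j + 1)) * (κ + g (j + 1)) := by
      rw [abs_mul, abs_of_nonneg (by linarith)]
      exact mul_le_mul_of_nonneg_left ih (by linarith)
    have b4 := abs_add_le ((a (j + 1) - a' (j + 1)) * (t j - u) + a' (j + 1) * (t j - t' j))
      ((1 - a' (j + 1)) * (u - u'))
    have b5 := abs_add_le ((a (j + 1) - a' (j + 1)) * (t j - u)) (a' (j + 1) * (t j - t' j))
    nlinarith

lemma av_T {Ω : Type} [Fintype Ω] (t : Ω → ℕ → ℝ) (a : ℕ → ℝ) :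
    ∀ c j, av (fun w => T (t w) a c j) = T (fun i => av (fun w => t w i)) a c j
  | 0, _ => rfl
  | c + 1, j => by
    simp only [T]
    rw [av_add, av_mul_left, av_mul_left, av_T t a c (j + 1)]

/-- The deterministic induction behind the balance estimate. -/
lemma T_le {d a : ℕ → ℝ} {θ : ℝ} {m : ℕ} (S : ℕ → Prop) (ha : ∀ j, 0 ≤ a j ∧ a j ≤ 1)
    (hS : ∀ i, a i < 1 → S i) (hd : ∀ j, j < m → S j → 0 < a (j + 1) → d j ≤ θ)
    (hm : S m → d m ≤ θ) : ∀ c j, j + c = m → S j → T d a c j ≤ θ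
  | 0, j, h, hj => by
    obtain rfl : j = m := h
    exact hm hj
  | c + 1, j, h, hj => by
    obtain ⟨a0, a1⟩ := ha (j + 1)
    simp only [T]
    have h1 : a (j + 1) * d j ≤ a (j + 1) * θ := by
      rcases a0.eq_or_lt with h0 | h0
      · rw [← h0]; simp
      · exact mul_le_mul_of_nonneg_left (hd j (by omega) hj h0) a0
    have h2 : (1 - a (j + 1)) * T d a c (j + 1) ≤ (1 - a (j + 1)) * θ := by
      rcases a1.eq_or_lt with h0 | h0
      · rw [h0]; simp
      · exact mul_le_mul_of_nonneg_left (T_le S ha hS hd hm c (j + 1) (by omega) (hS _ h0))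
          (by linarith)
    linarith

end Crest.Agent.R115
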