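import Crest.Agent.R115.Design
import Crest.Agent.R115.Tau

/-! Edges and weights built from a design (row 115). -/

set_option autoImplicit false

namespace Crest.Agent.R115

open Finset

/-- Extension of a finite sequence. -/
noncomputable def ext {β : ℕ → Type} [∀ j, Nonempty (β j)] {n : ℕ} (v : ∀ j : Fin (n + 1), β j)
    (j : ℕ) : β j :=
  if h : j < n + 1 then v ⟨j, h⟩ else Classical.arbitrary _

lemma ext_of_lt {β : ℕ → Type} [∀ j, Nonempty (β j)] {n : ℕ} (v : ∀ j : Fin (n + 1), β j)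
    {j : ℕ} (h : j < n + 1) : ext v j = v ⟨j, h⟩ := dif_pos h

lemma ext_update_ne {β : ℕ → Type} [∀ j, Nonempty (β j)] {n : ℕ} (v : ∀ j : Fin (n + 1), β j)
    (i : Fin (n + 1)) (a : β i) {j : ℕ} (h : j ≠ i) :
    ext (β := β) (Function.update v i a) j = ext v j := by
  unfold ext
  split_ifs with hj
  · exact Function.update_of_ne (fun e => h (congrArg Fin.val e)) _ _
  · rfl

lemma ext_update_self {β : ℕ → Type} [∀ j, Nonempty (β j)] {n : ℕ} (v : ∀ j : Fin (n + 1), β j)
    {j : ℕ} (h : j < n + 1) (a : β j) :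
    ext (β := β) (Function.update v ⟨j, h⟩ a) j = a := by
  rw [ext_of_lt _ h]
  exact Function.update_self (β := fun i : Fin (n + 1) => β i) ⟨j, h⟩ a v

/-- The ramp `0` below `1`, `1` above `2`. -/
noncomputable def ramp (s : ℝ) : ℝ := max 0 (min 1 (s - 1))

lemma ramp_mem (s : ℝ) : 0 ≤ ramp s ∧ ramp s ≤ 1 :=
  ⟨le_max_left _ _, max_le zero_le_one (min_le_left _ _)⟩

lemma ramp_lip (s s' : ℝ) : |ramp s - ramp s'| ≤ |s - s'| := by
  unfold ramp
  refine (abs_max_sub_max_le_max _ _ _ _).trans (max_le (by simp) ?_)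
  refine (abs_min_sub_min_le_max _ _ _ _).trans (max_le (by simp) ?_)
  rw [sub_sub_sub_cancel_right]

lemma one_lt_of_ramp_pos {s : ℝ} (h : 0 < ramp s) : 1 < s := by
  unfold ramp at h
  rcases lt_max_iff.1 h with h | h
  · exact absurd h (lt_irrefl _)
  · linarith [(lt_min_iff.1 h).2]

lemma lt_two_of_ramp_lt {s : ℝ} (h : ramp s < 1) : s < 2 := by
  unfold ramp at h
  rcases min_lt_iff.1 (max_lt_iff.1 h).2 with h | h
  · exact absurd h (lt_irrefl _)
  · linarith

namespace Design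

variable {C : ℕ} (G : Design C)

/-- Subsets of the ground set of level `j`. -/
abbrev Y (j : ℕ) : Type := Fin C × G.A j → Bool

/-- Direction indices of level `j`. -/
abbrev I (j : ℕ) : Type := G.L (j + 1) × (Fin C → Bool) × G.A j

open Classical in
/-- Flip a set along the graph of `g`. -/
noncomputable def flp {j : ℕ} (y : G.Y j) (g : Fin C → G.A j) : G.Y j :=
  fun p => if p.2 = g p.1 then !(y p) else y p

lemma flp_of_ne {j : ℕ} (y : G.Y j) (g : Fin C → G.A j) {p : Fin C × G.A j} (h : p.2 ≠ g p.1) :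
    G.flp y g p = y p := if_neg h

lemma flp_of_eq {j : ℕ} (y : G.Y j) (g : Fin C → G.A j) (c : Fin C) :
    G.flp y g (c, g c) = !(y (c, g c)) := if_pos rfl

lemma flp_flp {j : ℕ} (y : G.Y j) (g : Fin C → G.A j) : G.flp (G.flp y g) g = y := by
  funext p
  unfold flp
  split_ifs <;> simp

open Classical in
/-- The trace of a set on a line, off a direction. -/
noncomputable def oo (j : ℕ) (y : G.Y (j + 1)) (S : G.L (j + 1)) (i : G.I (j + 1)) :
    Fin C → Bool :=
  fun c => if G.ln _ S c = G.z _ i c then false else y (c, G.ln _ S c)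

/-- The direction indices of the edge of level `n` at `v` with free data `w`. -/
noncomputable def iota (n : ℕ) (v : ∀ j, G.Y j) (w : ∀ j, G.I j) (j : ℕ) : G.I j :=
  if j < n then ((w j).1, G.oo j (v (j + 1)) (w j).1 (iota n v w (j + 1)), (w j).2.2) else w j
termination_by n - j

lemma iota_of_lt {n : ℕ} (v : ∀ j, G.Y j) (w : ∀ j, G.I j) {j : ℕ} (h : j < n) :
    G.iota n v w j
      = ((w j).1, G.oo j (v (j + 1)) (w j).1 (G.iota n v w (j + 1)), (w j).2.2) := by
  rw [iota, if_pos h]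

lemma iota_of_le {n : ℕ} (v : ∀ j, G.Y j) (w : ∀ j, G.I j) {j : ℕ} (h : n ≤ j) :
    G.iota n v w j = w j := by
  rw [iota, if_neg (not_lt.2 h)]

lemma iota_cons {n : ℕ} (v : ∀ j, G.Y j) (w : ∀ j, G.I j) {j : ℕ} (h : j < n) :
    (G.iota n v w j).2.1 = G.oo j (v (j + 1)) (G.iota n v w j).1 (G.iota n v w (j + 1)) := by
  rw [G.iota_of_lt v w h]

lemma iota_congr {n : ℕ} {v v' : ∀ j, G.Y j} {w w' : ∀ j, G.I j} :
    ∀ (d j : ℕ), n - j = d →
      (∀ i, j < i → i ≤ n → ∀ p : Fin C × G.A i, p.2 ≠ G.z i (G.iota n v w i) p.1 →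
        v' i p = v i p) →
      (∀ i, j ≤ i → w' i = w i) → G.iota n v' w' j = G.iota n v w j
  | 0, j, h, _, hw => by
    rw [G.iota_of_le _ _ (by omega), G.iota_of_le _ _ (by omega), hw j le_rfl]
  | d + 1, j, h, hv, hw => by
    have ih := iota_congr d (j + 1) (by omega) (fun i hi => hv i (by omega))
      (fun i hi => hw i (by omega))
    rw [G.iota_of_lt _ _ (by omega : j < n), G.iota_of_lt _ _ (by omega : j < n), hw j le_rfl, ih]
    congr 2
    funext c
    unfold oo
    split_ifs with hc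
    · rfl
    · exact hv (j + 1) (by omega) (by omega) (c, _) hc

/-- Agreement with `v` along a direction. -/
noncomputable def raw (j : ℕ) (y v : G.Y j) (i : G.I j) : ℝ :=
  1 - cnt (fun c => y (c, G.z j i c) ≠ v (c, G.z j i c)) / C

/-- Truncated disagreement with `v` along a line, off a direction. -/
noncomputable def rho (K j : ℕ) (y v : G.Y (j + 1)) (S : G.L (j + 1)) (i : G.I (j + 1)) : ℝ :=
  min 1 (cnt (fun c => y (c, G.ln _ S c) ≠ v (c, G.ln _ S c) ∧ G.ln _ S c ≠ G.z _ i c) / (16 * K))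

/-- The switch between levels. -/
noncomputable def aa (K j : ℕ) (y v : G.Y j) (i : G.I j) : ℝ :=
  ramp (4 * K * cnt (fun p => y p ≠ v p ∧ p.2 ≠ G.z j i p.1) / (C * Fintype.card (G.A j)))

/-- The damping factor of level `j`. -/
noncomputable def rr (K m : ℕ) (y v : ∀ j, G.Y j) (ι : ∀ j, G.I j) (Xi : Fin (m + 1) → G.I m)
    (j : ℕ) : ℝ :=
  if j < m then G.rho K j (y (j + 1)) (v (j + 1)) (ι j).1 (ι (j + 1)) else 1 - ind (∃ k, Xi k = ι m)

/-- The weight of level `j`. -/
noncomputable def tt (K m : ℕ) (y v : ∀ j, G.Y j) (ι : ∀ j, G.I j) (Xi : Fin (m + 1) → G.I m)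
    (j : ℕ) : ℝ :=
  1 / 2 + (G.raw j (y j) (v j) (ι j) - 1 / 2) * G.rr K m y v ι Xi j

/-- The weight of a point of level `m`. -/
noncomputable def tau (K m : ℕ) (y v : ∀ j, G.Y j) (ι : ∀ j, G.I j) (Xi : Fin (m + 1) → G.I m) :
    ℝ :=
  T (G.tt K m y v ι Xi) (fun i => G.aa K i (y i) (v i) (ι i)) m 0

lemma raw_mem (j : ℕ) (y v : G.Y j) (i : G.I j) : 0 ≤ G.raw j y v i ∧ G.raw j y v i ≤ 1 := by
  unfold raw
  have h0 := cnt_nonneg (fun c => y (c, G.z j i c) ≠ v (c, G.z j i c))
  have h1 := cnt_le_card (fun c => y (c, G.z j i c) ≠ v (c, G.z j i c))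
  rw [Fintype.card_fin] at h1
  have h2 := div_le_one_of_le₀ h1 (Nat.cast_nonneg C)
  have h3 := div_nonneg h0 (Nat.cast_nonneg C : (0 : ℝ) ≤ C)
  constructor <;> linarith

lemma rho_mem (K j : ℕ) (y v : G.Y (j + 1)) (S : G.L (j + 1)) (i : G.I (j + 1)) :
    0 ≤ G.rho K j y v S i ∧ G.rho K j y v S i ≤ 1 :=
  ⟨le_min zero_le_one (div_nonneg (cnt_nonneg _) (by positivity)), min_le_left _ _⟩

lemma rr_mem (K m : ℕ) (y v : ∀ j, G.Y j) (ι : ∀ j, G.I j) (Xi : Fin (m + 1) → G.I m) (j : ℕ) :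
    0 ≤ G.rr K m y v ι Xi j ∧ G.rr K m y v ι Xi j ≤ 1 := by
  unfold rr
  split_ifs
  · exact G.rho_mem ..
  · constructor <;> linarith [ind_nonneg (∃ k, Xi k = ι m), ind_le_one (∃ k, Xi k = ι m)]

lemma tt_mem (K m : ℕ) (y v : ∀ j, G.Y j) (ι : ∀ j, G.I j) (Xi : Fin (m + 1) → G.I m) (j : ℕ) :
    0 ≤ G.tt K m y v ι Xi j ∧ G.tt K m y v ι Xi j ≤ 1 := by
  obtain ⟨a0, a1⟩ := G.raw_mem j (y j) (v j) (ι j)
  obtain ⟨b0, b1⟩ := G.rr_mem K m y v ι Xi j
  unfold tt
  constructor <;> nlinarith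

lemma tau_mem (K m : ℕ) (y v : ∀ j, G.Y j) (ι : ∀ j, G.I j) (Xi : Fin (m + 1) → G.I m) :
    0 ≤ G.tau K m y v ι Xi ∧ G.tau K m y v ι Xi ≤ 1 :=
  T_mem (G.tt_mem K m y v ι Xi) (fun _ => ramp_mem _) m 0

/-- Flipping the base point along the edge reverses the weight. -/
lemma tau_flip (hC : 0 < C) (K m : ℕ) (y v v' : ∀ j, G.Y j) (ι : ∀ j, G.I j)
    (Xi : Fin (m + 1) → G.I m) (hv : ∀ j, j ≤ m → v' j = G.flp (v j) (G.z j (ι j))) :
    G.tau K m y v' ι Xi = 1 - G.tau K m y v ι Xi := by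
  refine T_anti m 0 (fun i hi => ?_) (fun i hi => ?_)
  · have h1 : G.raw i (y i) (v' i) (ι i) = 1 - G.raw i (y i) (v i) (ι i) := by
      unfold raw
      have hc : (C : ℝ) ≠ 0 := by exact_mod_cast hC.ne'
      have := cnt_not (fun c => y i (c, G.z i (ι i) c) ≠ v i (c, G.z i (ι i) c))
      rw [Fintype.card_fin] at this
      rw [cnt_congr (Q := fun c => ¬ (y i (c, G.z i (ι i) c) ≠ v i (c, G.z i (ι i) c))), this]
      · field_simp
      · intro c
        rw [hv i (by omega), flp_of_eq]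
        cases y i (c, G.z i (ι i) c) <;> cases v i (c, G.z i (ι i) c) <;> simp
    have h2 : G.rr K m y v' ι Xi i = G.rr K m y v ι Xi i := by
      unfold rr
      split_ifs with him
      · unfold rho
        rw [cnt_congr]
        intro c
        refine and_congr_left fun hc => ?_
        rw [hv (i + 1) (by omega), G.flp_of_ne _ _ (p := (c, _)) hc]
      · rfl
    unfold tt
    rw [h1, h2]; ring
  · unfold aa
    rw [cnt_congr]
    intro p
    refine and_congr_left fun hc => ?_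
    rw [hv i (by omega), G.flp_of_ne _ _ hc]

lemma card_pos (j : ℕ) : (0 : ℝ) < Fintype.card (G.A j) := by
  exact_mod_cast Fintype.card_pos

lemma gam_succ (K j : ℕ) : 2 * (4 * (K : ℝ) / Fintype.card (G.A (j + 1)))
    ≤ 4 * K / Fintype.card (G.A j) := by
  have := G.card_pos j
  rw [G.card_succ]
  push_cast
  apply le_of_eq
  field_simp

lemma aa_lip (hC : 0 < C) (K j : ℕ) {P Q : Fin C × G.A j → Prop} (g : Fin C → G.A j)
    (h : ∀ p, p.2 ≠ g p.1 → (P p ↔ Q p)) :
    |ramp (4 * K * cnt P / (C * Fintype.card (G.A j)))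
      - ramp (4 * K * cnt Q / (C * Fintype.card (G.A j)))| ≤ 4 * K / Fintype.card (G.A j) := by
  refine (ramp_lip _ _).trans ?_
  have h1 := abs_cnt_sub (R := fun p : Fin C × G.A j => p.2 = g p.1) h
  rw [cnt_graph, Fintype.card_fin] at h1
  have hq := G.card_pos j
  have hc : (0 : ℝ) < C := by exact_mod_cast hC
  rw [← sub_div, ← mul_sub, abs_div, abs_mul, abs_of_nonneg (by positivity : (0 : ℝ) ≤ 4 * K),
    abs_of_pos (by positivity : (0 : ℝ) < C * Fintype.card (G.A j)), div_le_div_iff₀ (by positivity) hq]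
  have : (0 : ℝ) ≤ 4 * K * Fintype.card (G.A j) := by positivity
  nlinarith

/-- Moving the point along an admissible edge changes the weight a little. -/
lemma tau_lip (hC : 0 < C) {K : ℕ} (hK : 0 < K) (m : ℕ) (y y' v : ∀ j, G.Y j)
    (ι ι' : ∀ j, G.I j) (Xi : Fin (m + 1) → G.I m)
    (hι : ∀ j, j < m → (ι j).2.1 = G.oo j (v (j + 1)) (ι j).1 (ι (j + 1)))
    (hι' : ∀ j, j < m → (ι' j).2.1 = G.oo j (y (j + 1)) (ι' j).1 (ι' (j + 1)))
    (hy : ∀ j, j ≤ m → y' j = G.flp (y j) (G.z j (ι' j))) (hX : ∃ k, Xi k = ι' m) :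
    |G.tau K m y v ι Xi - G.tau K m y' v ι Xi|
      ≤ (4 / C + 1 / (4 * K)) + 4 * K / Fintype.card (G.A 0) := by
  have hc : (0 : ℝ) < C := by exact_mod_cast hC
  have hk : (0 : ℝ) < K := by exact_mod_cast hK
  refine T_lip (g := fun j => 4 * K / Fintype.card (G.A j)) (G.tt_mem K m y v ι Xi)
    (fun _ => ramp_mem _) (fun _ => ramp_mem _) (fun j => by positivity) (G.gam_succ K) m 0
    (fun i hi => ?_) (fun i hi => ?_)
  · obtain ⟨a0, a1⟩ := G.raw_mem i (y i) (v i) (ι i)
    obtain ⟨b0, b1⟩ := G.rr_mem K m y v ι Xi i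
    obtain ⟨a0', a1'⟩ := G.raw_mem i (y' i) (v i) (ι i)
    obtain ⟨b0', b1'⟩ := G.rr_mem K m y' v ι Xi i
    have e4 : (4 : ℝ) / (16 * K) = 1 / (4 * K) := by field_simp; norm_num
    have p1 : (0 : ℝ) ≤ 4 / C := by positivity
    have p2 : (0 : ℝ) ≤ 1 / (4 * K) := by positivity
    unfold tt
    by_cases hii : ι' i = ι i
    · -- the same direction: both damping factors are small
      have key : ∀ y'' : ∀ j, G.Y j, (∀ j, j ≤ m → ∀ p : Fin C × G.A j,
          p.2 ≠ G.z j (ι' j) p.1 → y'' j p = y j p) → G.rr K m y'' v ι Xi i ≤ 1 / (4 * K) := by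
        intro y'' hy''
        unfold rr
        split_ifs with him
        · refine (min_le_right _ _).trans ?_
          rw [← e4]
          refine div_le_div_of_nonneg_right ?_ (by positivity)
          refine le_trans (cnt_mono fun c hc => ?_) (G.lz _ (ι i).1 (ι' (i + 1)))
          by_contra hne
          have e1 := congrFun (hι i him) c
          have e2 := congrFun (hι' i him) c
          rw [hii] at e2
          unfold oo at e1 e2
          rw [if_neg hc.2] at e1
          rw [if_neg hne] at e2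
          exact hc.1 (by rw [hy'' (i + 1) (by omega) (c, _) hne, ← e1, ← e2])
        · obtain rfl : i = m := by omega
          rw [ind_of (hii ▸ hX)]
          simp
      have k1 := key y fun _ _ _ _ => rfl
      have k2 := key y' fun j hj p hp => by rw [hy j hj, G.flp_of_ne _ _ hp]
      rw [abs_le]
      constructor <;> nlinarith
    · -- different directions
      have d1 : |G.raw i (y i) (v i) (ι i) - G.raw i (y' i) (v i) (ι i)| ≤ 4 / C := by
        unfold raw
        rw [sub_sub_sub_cancel_left, ← sub_div, abs_div, abs_of_pos hc]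
        refine div_le_div_of_nonneg_right ?_ hc.le
        refine le_trans (abs_cnt_sub fun c hc => ?_) (G.zz i (ι i) (ι' i) (Ne.symm hii))
        rw [hy i (by omega), G.flp_of_ne _ _ (p := (c, _)) hc]
      have d2 : |G.rr K m y v ι Xi i - G.rr K m y' v ι Xi i| ≤ 1 / (4 * K) := by
        unfold rr
        split_ifs with him
        · unfold rho
          refine (abs_min_sub_min_le_max _ _ _ _).trans (max_le (by simp) ?_)
          rw [← sub_div, abs_div, abs_of_pos (by positivity : (0 : ℝ) < 16 * K), ← e4]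
          refine div_le_div_of_nonneg_right ?_ (by positivity)
          refine le_trans (abs_cnt_sub fun c hc => ?_) (G.lz _ (ι i).1 (ι' (i + 1)))
          rw [hy (i + 1) (by omega), G.flp_of_ne _ _ (p := (c, _)) hc]
        · simp
      rw [abs_le] at d1 d2 ⊢
      obtain ⟨d1, d1'⟩ := d1
      obtain ⟨d2, d2'⟩ := d2
      constructor <;> nlinarith
  · refine G.aa_lip hC K i (G.z i (ι' i)) fun p hp => ?_
    rw [hy i (by omega), G.flp_of_ne _ _ hp]

end Design

end Crest.Agent.R115
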