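import Crest.Agent.R115.Core

/-! From the combinatorial core to a rigid component (row 115). -/

set_option autoImplicit false

namespace Crest.Agent.R115

open Finset

namespace Core

variable {K : ℕ} (R : Core K) (J : ℕ)

/-- The points of the component. -/
abbrev X : Type := Σ m, R.V m × (Fin (m + 1) → R.I m)

/-- The truncated distance functions. -/
noncomputable def Q (p : ℕ) (y : R.Y) (x : R.X) : ℝ := max 0 (J * p - R.dd (R.pr x.1 x.2.1) y)

/-- The test functions attached to edges. -/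
noncomputable def s (p n : ℕ) (v : R.V n) (w : R.W n) (x : R.X) : ℝ :=
  R.τ n v w x * R.Q J (p + 1) (R.pr n v) x
    + (1 - R.τ n v w x) * R.Q J p (R.pr n (R.fl n w v)) x

/-- The family of test functions. -/
def F : Set (R.X → ℝ) :=
  {g | (∃ y, g = R.Q J (J + 1) y) ∨ ∃ p, p ≤ J ∧ ∃ n v w, g = R.s J p n v w}

lemma Q_nonneg (p : ℕ) (y : R.Y) (x : R.X) : 0 ≤ R.Q J p y x := le_max_left _ _

lemma Q_le {p : ℕ} (hp : p ≤ J + 1) (y : R.Y) (x : R.X) : R.Q J p y x ≤ J * (J + 1) := by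
  have h1 : (p : ℝ) ≤ J + 1 := by exact_mod_cast hp
  have h2 := R.dd_nonneg (R.pr x.1 x.2.1) y
  have h3 : (0 : ℝ) ≤ J := Nat.cast_nonneg _
  exact max_le (by positivity) (by nlinarith)

lemma Q_diff (p : ℕ) {y y' : R.Y} (x : R.X)
    (h : |R.dd (R.pr x.1 x.2.1) y - R.dd (R.pr x.1 x.2.1) y'| ≤ 1) :
    |R.Q J (p + 1) y x - R.Q J p y' x| ≤ J + 1 := by
  unfold Q
  refine (abs_max_sub_max_le_max _ _ _ _).trans (max_le (by simp; positivity) ?_)
  rw [abs_le] at h ⊢
  have h3 : (0 : ℝ) ≤ J := Nat.cast_nonneg _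
  push_cast
  constructor <;> nlinarith [h.1, h.2]

lemma Q_zero {p : ℕ} (hp : p ≤ J + 1) {y : R.Y} {x : R.X}
    (h : (J : ℝ) * (J + 1) ≤ R.dd (R.pr x.1 x.2.1) y) : R.Q J p y x = 0 := by
  have h1 : (p : ℝ) ≤ J + 1 := by exact_mod_cast hp
  have h3 : (0 : ℝ) ≤ J := Nat.cast_nonneg _
  exact max_eq_left (by nlinarith)

lemma Q_lip (p : ℕ) (y : R.Y) (x x' : R.X) :
    |R.Q J p y x - R.Q J p y x'| ≤ |R.dd (R.pr x.1 x.2.1) y - R.dd (R.pr x'.1 x'.2.1) y| := by
  unfold Q
  refine (abs_max_sub_max_le_max _ _ _ _).trans (max_le (by simp) ?_)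
  rw [sub_sub_sub_cancel_left, abs_sub_comm]

lemma F_bdd : ∀ g ∈ R.F J, ∀ x, 0 ≤ g x ∧ g x ≤ J * (J + 1) := by
  rintro g (⟨y, rfl⟩ | ⟨p, hp, n, v, w, rfl⟩) x
  · exact ⟨R.Q_nonneg J _ _ _, R.Q_le J le_rfl _ _⟩
  · have a0 := R.τ_nonneg n v w x
    have a1 := R.τ_le n v w x
    have b0 := R.Q_nonneg J (p + 1) (R.pr n v) x
    have b1 := R.Q_le J (p := p + 1) (by omega) (R.pr n v) x
    have c0 := R.Q_nonneg J p (R.pr n (R.fl n w v)) x
    have c1 := R.Q_le J (p := p) (by omega) (R.pr n (R.fl n w v)) x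
    unfold s
    constructor <;> nlinarith

lemma s_diff (p n : ℕ) (v : R.V n) (w : R.W n) (x x' : R.X) {a b : ℝ}
    (ha : |R.τ n v w x - R.τ n v w x'| ≤ a)
    (hb : ∀ y, |R.dd (R.pr x.1 x.2.1) y - R.dd (R.pr x'.1 x'.2.1) y| ≤ b) :
    |R.s J p n v w x - R.s J p n v w x'| ≤ a * (J + 1) + b := by
  have a0 := R.τ_nonneg n v w x'
  have a1 := R.τ_le n v w x'
  have h1 := R.Q_diff J p x (R.dd_fl n w v _)
  have h2 := (R.Q_lip J (p + 1) (R.pr n v) x x').trans (hb _)
  have h3 := (R.Q_lip J p (R.pr n (R.fl n w v)) x x').trans (hb _)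
  have : R.s J p n v w x - R.s J p n v w x' = (R.τ n v w x - R.τ n v w x') *
      (R.Q J (p + 1) (R.pr n v) x - R.Q J p (R.pr n (R.fl n w v)) x)
      + (R.τ n v w x' * (R.Q J (p + 1) (R.pr n v) x - R.Q J (p + 1) (R.pr n v) x')
      + (1 - R.τ n v w x') * (R.Q J p (R.pr n (R.fl n w v)) x
        - R.Q J p (R.pr n (R.fl n w v)) x')) := by
    unfold s; ring
  rw [this]
  refine (abs_add_le _ _).trans (add_le_add ?_ ((abs_add_le _ _).trans ?_))
  · rw [abs_mul]
    exact mul_le_mul ha h1 (abs_nonneg _) ((abs_nonneg _).trans ha)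
  · rw [abs_mul, abs_mul, abs_of_nonneg a0, abs_of_nonneg (by linarith : 0 ≤ 1 - R.τ n v w x')]
    nlinarith

lemma F_edge (hK : J + 1 ≤ K) (m : ℕ) (v' : R.V m) (w' : R.W m) (Xi : Fin (m + 1) → R.I m)
    (k : Fin (m + 1)) (hk : Xi k = R.top m w') :
    ∀ g ∈ R.F J, |g ⟨m, v', Xi⟩ - g ⟨m, R.fl m w' v', Xi⟩| ≤ 2 := by
  have hb : ∀ y, |R.dd (R.pr m v') y - R.dd (R.pr m (R.fl m w' v')) y| ≤ 1 := fun y => by
    rw [R.dd_symm _ y, R.dd_symm _ y]; exact R.dd_fl m w' v' y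
  rintro g (⟨y, rfl⟩ | ⟨p, hp, n, v, w, rfl⟩)
  · exact ((R.Q_lip J _ y _ _).trans (hb y)).trans one_le_two
  · refine (R.s_diff J p n v w _ _ (R.u1 n v w m v' w' Xi k hk) hb).trans ?_
    have h1 : (J : ℝ) + 1 ≤ K := by exact_mod_cast hK
    have h2 : (0 : ℝ) < J + 1 := by positivity
    have : 1 / (K : ℝ) * (J + 1) ≤ 1 := by
      rw [one_div, inv_mul_le_iff₀ (by linarith)]; linarith
    linarith

lemma F_same (x x' : R.X) (h : R.pr x.1 x.2.1 = R.pr x'.1 x'.2.1) :
    ∀ g ∈ R.F J, |g x - g x'| ≤ J + 1 := by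
  have hb : ∀ y, |R.dd (R.pr x.1 x.2.1) y - R.dd (R.pr x'.1 x'.2.1) y| ≤ 0 := fun y => by
    rw [h]; simp
  rintro g (⟨y, rfl⟩ | ⟨p, hp, n, v, w, rfl⟩)
  · exact ((R.Q_lip J _ y _ _).trans (hb y)).trans (by positivity)
  · refine (R.s_diff J p n v w _ _ (a := 1) ?_ hb).trans (by simp)
    have a0 := R.τ_nonneg n v w x'
    have a1 := R.τ_le n v w x'
    have b0 := R.τ_nonneg n v w x
    have b1 := R.τ_le n v w x
    rw [abs_le]; constructor <;> linarith

lemma bal_aux {n : ℕ} (v : R.V n) (x : R.X) (hx : x.1 < n)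
    (u : R.W n → ℝ) (hu : ∀ w, |u w| ≤ J + 1)
    (hu0 : (K : ℝ) < R.dd (R.pr x.1 x.2.1) (R.pr n v) → ∀ w, u w = 0) :
    |av (fun w => (1 - R.τ n v w x) * u w)| ≤ (J + 1) / K := by
  by_cases h : R.dd (R.pr x.1 x.2.1) (R.pr n v) ≤ K
  · refine (abs_av_le _).trans ?_
    have : ∀ w, |(1 - R.τ n v w x) * u w| ≤ (1 - R.τ n v w x) * (J + 1) := fun w => by
      have := R.τ_le n v w x
      rw [abs_mul, abs_of_nonneg (by linarith)]
      exact mul_le_mul_of_nonneg_left (hu w) (by linarith)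
    refine (av_mono this).trans ?_
    rw [av_mul_right]
    refine (mul_le_mul_of_nonneg_right (R.bal n v x hx h) (by positivity)).trans_eq ?_
    ring
  · simp only [hu0 (not_le.1 h), mul_zero, av_zero, abs_zero]
    positivity

lemma bal_low (hK : J * (J + 1) + 1 ≤ K) {p : ℕ} (hp : p ≤ J) {n : ℕ} (v : R.V n) (x : R.X)
    (hx : x.1 < n) :
    |av (fun w => R.s J p n v w x) - R.Q J (p + 1) (R.pr n v) x| ≤ (J + 1) / K := by
  have hK' : (J : ℝ) * (J + 1) + 1 ≤ K := by exact_mod_cast hK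
  rw [← av_const (α := R.W n) (R.Q J (p + 1) (R.pr n v) x), ← av_sub,
    av_congr (g := fun w => (1 - R.τ n v w x) *
      (R.Q J p (R.pr n (R.fl n w v)) x - R.Q J (p + 1) (R.pr n v) x))
      (fun w => by unfold s; ring)]
  refine R.bal_aux J v x hx _ (fun w => ?_) (fun h w => ?_)
  · rw [abs_sub_comm]; exact R.Q_diff J p x (R.dd_fl n w v _)
  · have := abs_le.1 (R.dd_fl n w v (R.pr x.1 x.2.1))
    rw [R.Q_zero J (by omega) (by linarith [this.2]), R.Q_zero J (by omega) (by linarith), sub_self]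

lemma bal_up (hK : J * (J + 1) + 1 ≤ K) {p : ℕ} (hp : p ≤ J) {n : ℕ} (v : R.V n) (x : R.X)
    (hx : x.1 < n) :
    |av (fun w => R.s J p n (R.fl n w v) w x) - R.Q J p (R.pr n v) x| ≤ (J + 1) / K := by
  have hK' : (J : ℝ) * (J + 1) + 1 ≤ K := by exact_mod_cast hK
  rw [← av_const (α := R.W n) (R.Q J p (R.pr n v) x), ← av_sub,
    av_congr (g := fun w => (1 - R.τ n v w x) *
      (R.Q J (p + 1) (R.pr n (R.fl n w v)) x - R.Q J p (R.pr n v) x))
      (fun w => by unfold s; rw [R.fl_fl, R.τ_fl]; ring)]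
  refine R.bal_aux J v x hx _ (fun w => ?_) (fun h w => ?_)
  · refine R.Q_diff J p x ?_
    rw [abs_sub_comm]; exact R.dd_fl n w v _
  · have := abs_le.1 (R.dd_fl n w v (R.pr x.1 x.2.1))
    rw [R.Q_zero J (by omega) (by linarith [this.2]), R.Q_zero J (by omega) (by linarith), sub_self]

lemma av_fl {n : ℕ} (h : R.V n → R.W n → ℝ) :
    av (fun v => av (fun w => h (R.fl n w v) w)) = av (fun v => av (fun w => h v w)) := by
  rw [av_comm, av_comm h]
  exact av_congr fun w =>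
    av_bij _ (Function.Involutive.bijective (R.fl_fl n w)) (fun v => h v w)

end Core

lemma abs_pair_sub_left {X : Type} (B : Finset X) (u u' g : X → ℝ) {D : ℝ}
    (hg : ∀ b, |g b| ≤ D) :
    |∑ b ∈ B, u b * g b - ∑ b ∈ B, u' b * g b| ≤ D * ∑ b ∈ B, |u b - u' b| := by
  rw [← sum_sub_distrib, mul_sum]
  refine (abs_sum_le_sum_abs _ _).trans (sum_le_sum fun b _ => ?_)
  rw [← sub_mul, abs_mul, mul_comm]
  exact mul_le_mul_of_nonneg_right (hg b) (abs_nonneg _)

lemma abs_pair_sub_right {X : Type} (B : Finset X) (u g g' : X → ℝ) {η : ℝ}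
    (hg : ∀ b ∈ B, |g b - g' b| ≤ η) :
    |∑ b ∈ B, u b * g b - ∑ b ∈ B, u b * g' b| ≤ η * ∑ b ∈ B, |u b| := by
  rw [← sum_sub_distrib, mul_sum]
  refine (abs_sum_le_sum_abs _ _).trans (sum_le_sum fun b hb => ?_)
  rw [← mul_sub, abs_mul, mul_comm]
  exact mul_le_mul_of_nonneg_right (hg b hb) (abs_nonneg _)

lemma av_pair_left {X Ω : Type} [Fintype Ω] (B : Finset X) (u : Ω → X → ℝ) (g : X → ℝ) :
    av (fun w => ∑ b ∈ B, u w b * g b) = ∑ b ∈ B, av (fun w => u w b) * g b := by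
  rw [av_sum B (fun b w => u w b * g b)]
  exact sum_congr rfl fun b _ => av_mul_right _ _

lemma av_pair_right {X Ω : Type} [Fintype Ω] (B : Finset X) (u : X → ℝ) (g : Ω → X → ℝ) :
    av (fun w => ∑ b ∈ B, u b * g w b) = ∑ b ∈ B, u b * av (fun w => g w b) := by
  rw [av_sum B (fun b w => u b * g w b)]
  exact sum_congr rfl fun b _ => av_mul_left _ _

open Classical in
theorem Core.rigid {J : ℕ} (hJ : 1 ≤ J) (R : Core (2 * (J * (J + 1)) * (J + 1)))
    (Xi0 : Fin (0 + 1) → R.I 0) :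
    Rigid J (R.F J) (J * (J + 1))
      (univ.image fun y : R.Y => (⟨0, R.lift y, Xi0⟩ : R.X)) := by
  intro lam B c hlam hc1 hc2 hc3
  have hJ' : (1 : ℝ) ≤ J := by exact_mod_cast hJ
  set D : ℝ := J * (J + 1) with hD
  have hD0 : 0 < D := by positivity
  have hK1 : J + 1 ≤ 2 * (J * (J + 1)) * (J + 1) := Nat.le_mul_of_pos_left _ (by positivity)
  have hK2 : J * (J + 1) + 1 ≤ 2 * (J * (J + 1)) * (J + 1) := by
    have : 1 ≤ J * (J + 1) := Nat.succ_le_of_lt (by positivity)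
    nlinarith
  have hη : ((J : ℝ) + 1) / ((2 * (J * (J + 1)) * (J + 1) : ℕ) : ℝ) = 1 / (2 * D) := by
    rw [hD]; push_cast; field_simp
  -- choice of the level
  set e : ℝ := 1 / (4 * D * (B.card + 1)) with he
  have he0 : 0 < e := by positivity
  obtain ⟨n0, hn0⟩ := exists_nat_ge ((lam * D) ^ 2 / e ^ 2)
  set n : ℕ := n0 + B.sup (fun b => b.1) + 1 with hn
  have hnB : ∀ b ∈ B, b.1 < n := fun b hb => by
    have := Finset.le_sup (f := fun b : R.X => b.1) hb
    omega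
  have hne : (lam * D) ^ 2 ≤ e ^ 2 * (n + 1) := by
    rw [div_le_iff₀ (by positivity)] at hn0
    have : (n0 : ℝ) ≤ n + 1 := by exact_mod_cast (by omega : n0 ≤ n + 1)
    nlinarith [sq_nonneg e]
  set cb : R.V n → R.X → ℝ := fun v b => av (fun Xi => c ⟨n, v, Xi⟩ b) with hcb
  set cz : R.V n → R.I n → R.X → ℝ := fun v z b =>
    av (fun k : Fin (n + 1) => av (fun Xi => c ⟨n, v, Function.update Xi k z⟩ b)) with hcz
  have hcb1 : ∀ v, ∑ b ∈ B, |cb v b| ≤ lam * D := fun v => by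
    refine (sum_le_sum fun b _ => abs_av_le _).trans ?_
    rw [← av_sum B (fun b Xi => |c ⟨n, v, Xi⟩ b|)]
    exact av_le fun Xi => hc1 _
  set dev : R.V n → R.I n → ℝ := fun v z => ∑ b ∈ B, |cz v z b - cb v b| with hdev
  have hdev1 : av (fun v => av (fun w => D * dev v (R.top n w))) ≤ 1 / 4 := by
    refine av_le fun v => ?_
    rw [av_mul_left, R.av_top n (dev v), hdev]
    simp only
    rw [av_sum B (fun b z => |cz v z b - cb v b|)]
    have : ∀ b ∈ B, av (fun z => |cz v z b - cb v b|) ≤ e := fun b hb =>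
      overwrite_abs (fun Xi => c ⟨n, v, Xi⟩ b) (lam * D) e he0.le
        (fun Xi => (single_le_sum (f := fun b => |c ⟨n, v, Xi⟩ b|)
          (fun _ _ => abs_nonneg _) hb).trans (hc1 _)) hne
    refine (mul_le_mul_of_nonneg_left (sum_le_sum this) hD0.le).trans ?_
    rw [sum_const, nsmul_eq_mul, he]
    have : (0 : ℝ) ≤ B.card := Nat.cast_nonneg _
    rw [mul_one_div, ← mul_div_assoc, div_le_div_iff₀ (by positivity) (by norm_num)]
    nlinarith
  set Bp : ℕ → ℝ := fun p => av (fun v => ∑ b ∈ B, cb v b * R.Q J p (R.pr n v) b) with hBp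
  have hhalf : 1 / (2 * D) * (lam * D) = lam / 2 := by field_simp
  have step : ∀ p, p ≤ J → Bp (p + 1) ≤ Bp p + (3 * lam + 1 / 2) := by
    intro p hp
    have hs : ∀ v w, R.s J p n v w ∈ R.F J := fun v w => Or.inr ⟨p, hp, n, v, w, rfl⟩
    have hsD : ∀ v w b, |R.s J p n v w b| ≤ D := fun v w b => by
      have := R.F_bdd J _ (hs v w) b
      rw [abs_of_nonneg this.1]; exact this.2
    have E1 : Bp (p + 1) - lam / 2
        ≤ av (fun v => av (fun w => ∑ b ∈ B, cb v b * R.s J p n v w b)) := by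
      rw [hBp, ← av_const (α := R.V n) (lam / 2), ← av_sub]
      refine av_mono fun v => ?_
      rw [av_pair_right]
      have := abs_pair_sub_right B (cb v) _ _ fun b hb => R.bal_low J hK2 hp v b (hnB b hb)
      rw [hη] at this
      have h2 := this.trans (mul_le_mul_of_nonneg_left (hcb1 v) (by positivity))
      rw [hhalf] at h2
      linarith [(abs_le.1 h2).1]
    have E2 : av (fun v => av (fun w => ∑ b ∈ B, cb (R.fl n w v) b * R.s J p n v w b))
        ≤ Bp p + lam / 2 := by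
      rw [← R.av_fl (fun v w => ∑ b ∈ B, cb (R.fl n w v) b * R.s J p n v w b)]
      simp only [R.fl_fl]
      rw [hBp, ← av_const (α := R.V n) (lam / 2), ← av_add]
      refine av_mono fun v => ?_
      rw [av_pair_right]
      have := abs_pair_sub_right B (cb v) _ _ fun b hb => R.bal_up J hK2 hp v b (hnB b hb)
      rw [hη] at this
      have h2 := this.trans (mul_le_mul_of_nonneg_left (hcb1 v) (by positivity))
      rw [hhalf] at h2
      linarith [(abs_le.1 h2).2]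
    have E3 : ∀ v w, ∑ b ∈ B, cb v b * R.s J p n v w b
        ≤ ∑ b ∈ B, cb (R.fl n w v) b * R.s J p n v w b + D * dev v (R.top n w)
          + D * dev (R.fl n w v) (R.top n w) + lam * 2 := by
      intro v w
      have h1 := abs_pair_sub_left B (cz v (R.top n w)) (cb v) _ (hsD v w)
      have h2 := abs_pair_sub_left B (cz (R.fl n w v) (R.top n w)) (cb (R.fl n w v)) _ (hsD v w)
      have h3 : ∑ b ∈ B, cz v (R.top n w) b * R.s J p n v w b
          - ∑ b ∈ B, cz (R.fl n w v) (R.top n w) b * R.s J p n v w b ≤ lam * 2 := by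
        simp only [hcz]
        rw [← av_pair_left, ← av_pair_left, ← av_sub]
        refine av_le fun k => ?_
        rw [← av_pair_left, ← av_pair_left, ← av_sub]
        refine av_le fun Xi => ?_
        exact (le_abs_self _).trans (hc2 _ _ 2 le_rfl
          (R.F_edge J hK1 n v w _ k (Function.update_self ..)) _ (hs v w))
      simp only [hdev]
      linarith [(abs_le.1 h1).1, (abs_le.1 h2).2]
    have E4 := av_mono fun v => av_mono (E3 v)
    simp only [av_add, av_const] at E4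
    rw [R.av_fl (fun v w => D * dev v (R.top n w))] at E4
    linarith
  have hB0 : Bp 0 = 0 := by
    rw [hBp]
    simp only
    rw [av_congr (g := fun _ => 0), av_zero]
    intro v
    refine sum_eq_zero fun b _ => ?_
    have : R.Q J 0 (R.pr n v) b = 0 := max_eq_left (by simpa using R.dd_nonneg _ _)
    rw [this, mul_zero]
  have hup : ∀ p, p ≤ J + 1 → Bp p ≤ p * (3 * lam + 1 / 2) := by
    intro p
    induction p with
    | zero => intro _; simp [hB0]
    | succ p ih =>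
      intro hp
      have := step p (by omega)
      have := ih (by omega)
      push_cast
      linarith
  have hlow : D - 1 - lam * (J + 1) ≤ Bp (J + 1) := by
    refine le_av fun v => ?_
    rw [← av_pair_left]
    refine le_av fun Xi => ?_
    have hQ : R.Q J (J + 1) (R.pr n v) ∈ R.F J := Or.inl ⟨_, rfl⟩
    have h1 := hc2 ⟨n, v, Xi⟩ ⟨0, R.lift (R.pr n v), Xi0⟩ (J + 1) (by linarith)
      (R.F_same J _ _ (R.pr_lift _).symm) _ hQ
    have h2 := hc3 ⟨0, R.lift (R.pr n v), Xi0⟩ (mem_image.2 ⟨_, mem_univ _, rfl⟩) _ hQ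
    have h3 : R.Q J (J + 1) (R.pr n v) ⟨0, R.lift (R.pr n v), Xi0⟩ = D := by
      unfold Core.Q
      simp only [R.pr_lift, R.dd_self]
      push_cast
      rw [sub_zero, max_eq_right hD0.le]
    rw [h3] at h2
    linarith [(abs_le.1 h1).1, (abs_le.1 h2).1]
  have hfin := hlow.trans (hup (J + 1) le_rfl)
  push_cast at hfin
  rw [hD] at hfin
  have hpos : (0 : ℝ) < J + 1 := by positivity
  refine le_of_mul_le_mul_right ?_ hpos
  nlinarith

lemma Rigid.transfer {X X' : Type} (e : X' ≃ X) {J : ℕ} {F : Set (X → ℝ)} {D : ℝ} {L0 : Finset X}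
    (h : Rigid J F D L0) : Rigid J ((fun g => g ∘ e) '' F) D (L0.map e.symm.toEmbedding) := by
  intro lam B c hlam h1 h2 h3
  refine h lam (B.map e.toEmbedding) (fun x b => c (e.symm x) (e.symm b)) hlam ?_ ?_ ?_
  · intro x
    simpa using h1 (e.symm x)
  · intro x x' t ht hx g hg
    have := h2 (e.symm x) (e.symm x') t ht ?_ (g ∘ e) ⟨g, hg, rfl⟩
    · simpa using this
    · rintro _ ⟨g', hg', rfl⟩
      simpa using hx g' hg'
  · intro a ha g hg
    have := h3 (e.symm a) (mem_map_of_mem _ ha) (g ∘ e) ⟨g, hg, rfl⟩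
    simpa using this

theorem exists_comp {J : ℕ} (hJ : 1 ≤ J) : Nonempty (Comp J) := by
  obtain ⟨R⟩ := exists_core (K := 2 * (J * (J + 1)) * (J + 1)) (by positivity)
  have hJ' : (1 : ℝ) ≤ J := by exact_mod_cast hJ
  have : Infinite R.X := Infinite.of_surjective (fun x : R.X => x.1) fun m =>
    ⟨⟨m, Classical.arbitrary _, Classical.arbitrary _⟩, rfl⟩
  obtain ⟨d⟩ := nonempty_denumerable R.X
  refine ⟨⟨_, J * (J + 1), _, by nlinarith, by nlinarith, ?_,
    (R.rigid hJ (Classical.arbitrary _)).transfer (Denumerable.eqv R.X).symm⟩⟩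
  rintro _ ⟨g, hg, rfl⟩ x
  exact R.F_bdd J g hg _

end Crest.Agent.R115
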