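import Crest.Agent.R115.Free
import Crest.Agent.R115.Defs

/-! The metric space glued from rigid components (row 115). -/

set_option autoImplicit false

namespace Crest.Agent.R115

open Crest.AnalysisR Crest.AnalysisR.PointedMetric UniformSpace

/-- The points: a base point and countably many copies of `ℕ`. -/
abbrev MM : Type := Option (ℕ × ℕ)

/-- Extension by zero of a function on the component `k`. -/
noncomputable def extd (k : ℕ) (g : ℕ → ℝ) : MM → ℝ
  | none => 0
  | some p => if p.1 = k then g p.2 else 0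

/-- The component of a point. -/
def lev : MM → ℕ
  | none => 0
  | some p => p.1

variable (C : ∀ k, Comp (k + 1))

/-- The functions defining the metric. -/
def GG : Set (MM → ℝ) :=
  {G | ∃ k g, (g ∈ (C k).F ∨ g = fun _ => ((k + 1 : ℕ) : ℝ)) ∧ G = extd k g}

lemma D_pos (k : ℕ) : 0 < (C k).D := by linarith [(C k).two_le]

lemma GG_mem {G : MM → ℝ} (hG : G ∈ GG C) (x : MM) : 0 ≤ G x ∧ G x ≤ (C (lev x)).D := by
  obtain ⟨k, g, hg, rfl⟩ := hG
  rcases x with _ | ⟨k', i⟩
  · exact ⟨le_rfl, (D_pos C _).le⟩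
  · simp only [extd, lev]
    split_ifs with h
    · subst h
      rcases hg with hg | rfl
      · exact (C k').bdd g hg i
      · exact ⟨Nat.cast_nonneg _, (C k').J_le⟩
    · exact ⟨le_rfl, (D_pos C _).le⟩

lemma GG_none {G : MM → ℝ} (hG : G ∈ GG C) : G none = 0 := by
  obtain ⟨k, g, -, rfl⟩ := hG
  rfl

/-- The pseudo-distance induced by the functions. -/
noncomputable def rho (x y : MM) : ℝ := ⨆ G : GG C, |G.1 x - G.1 y|

lemma le_rho {G : MM → ℝ} (hG : G ∈ GG C) (x y : MM) : |G x - G y| ≤ rho C x y := by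
  refine le_ciSup (f := fun G : GG C => |G.1 x - G.1 y|)
    ⟨(C (lev x)).D + (C (lev y)).D, ?_⟩ ⟨G, hG⟩
  rintro _ ⟨G', rfl⟩
  have h1 := GG_mem C G'.2 x
  have h2 := GG_mem C G'.2 y
  exact abs_le.2 ⟨by linarith [h1.1, h1.2, h2.1, h2.2], by linarith [h1.1, h1.2, h2.1, h2.2]⟩

lemma rho_le {x y : MM} {t : ℝ} (ht : 0 ≤ t) (h : ∀ G ∈ GG C, |G x - G y| ≤ t) :
    rho C x y ≤ t :=
  Real.iSup_le (fun G => h G.1 G.2) ht

/-- The distance. -/
noncomputable def dd (x y : MM) : ℝ := if x = y then 0 else max 2 (rho C x y)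

lemma dd_nonneg (x y : MM) : 0 ≤ dd C x y := by
  unfold dd
  split_ifs
  · exact le_rfl
  · exact le_max_of_le_left zero_le_two

lemma two_le_dd {x y : MM} (h : x ≠ y) : 2 ≤ dd C x y := by
  unfold dd; rw [if_neg h]; exact le_max_left _ _

lemma le_dd {G : MM → ℝ} (hG : G ∈ GG C) (x y : MM) : |G x - G y| ≤ dd C x y := by
  unfold dd
  split_ifs with h
  · simp [h]
  · exact le_max_of_le_right (le_rho C hG x y)

lemma dd_le {x y : MM} {t : ℝ} (ht : 2 ≤ t) (h : ∀ G ∈ GG C, |G x - G y| ≤ t) :
    dd C x y ≤ t := by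
  unfold dd
  split_ifs
  · linarith
  · exact max_le ht (rho_le C (by linarith) h)

/-- The metric. -/
@[reducible] noncomputable def metric : MetricSpace MM where
  dist := dd C
  dist_self x := if_pos rfl
  dist_comm x y := by
    unfold dd rho
    simp only [eq_comm (a := x), abs_sub_comm]
  dist_triangle x y z := by
    by_cases hxy : x = y
    · subst hxy; linarith [dd_nonneg C x x]
    · refine dd_le C (by linarith [two_le_dd C hxy, dd_nonneg C y z]) fun G hG => ?_
      exact (abs_sub_le _ _ _).trans (add_le_add (le_dd C hG x y) (le_dd C hG y z))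
  eq_of_dist_eq_zero {x y} h := by
    by_contra hxy
    have := two_le_dd C hxy
    change dd C x y = 0 at h
    linarith

/-- The pointed metric space. -/
noncomputable def PP : PointedMetric := ⟨MM, metric C, none⟩

attribute [local instance] PointedMetric.metric

lemma dd_base_le (x : MM) : dd C x none ≤ (C (lev x)).D :=
  dd_le C (C _).two_le fun G hG => by
    have := GG_mem C hG x
    rw [GG_none C hG, sub_zero, abs_of_nonneg this.1]; exact this.2

lemma good_of (A : Set (PP C).M)
    (h : ∀ k i i' : ℕ, (some (k, i) : MM) ∈ A → (some (k, i') : MM) ∈ A) : Good A 1 := by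
  refine ⟨le_rfl, fun x hx y hy => ?_⟩
  rw [one_mul]
  change dd C x none ≤ dd C x y
  have hxy : x ≠ y := fun e => hy (e ▸ hx)
  refine dd_le C (two_le_dd C hxy) fun G hG => ?_
  have h1 := le_dd C hG x y
  obtain ⟨k, g, -, rfl⟩ := hG
  rcases x with _ | ⟨k', i⟩
  · simpa using dd_nonneg C _ _
  · by_cases hk : k' = k
    · have : extd k g y = extd k g none := by
        rcases y with _ | ⟨k'', i'⟩
        · rfl
        · have : k'' ≠ k := fun e => hy (by rw [e, ← hk]; exact h k' i i' hx)
          simp [extd, this]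
      rwa [this] at h1
    · simpa [extd, hk] using dd_nonneg C _ _

lemma good_of_bound (A : Set (PP C).M) {L : ℝ} (hL : 1 ≤ L) (h : ∀ x ∈ A, (C (lev x)).D ≤ L) :
    Good A L := by
  refine ⟨hL, fun x hx y hy => ?_⟩
  change dd C x none ≤ L * dd C x y
  have hxy : x ≠ y := fun e => hy (e ▸ hx)
  have := two_le_dd C hxy
  have := (dd_base_le C x).trans (h x hx)
  nlinarith

theorem PP_basic : (PP C).IsCountableSeparatedUnboundedNonproper := by
  refine ⟨inferInstanceAs (Countable MM), fun x y h => one_le_two.trans (two_le_dd C h), ?_, ?_⟩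
  · intro hb
    obtain ⟨r, hr⟩ := (Metric.isBounded_iff_subset_closedBall (PP C).base).1 hb
    obtain ⟨k, hk⟩ := exists_nat_gt r
    have h1 : dd C (some (k, 0)) none ≤ r := hr (Set.mem_univ (some (k, 0) : MM))
    have h2 := le_dd C (G := extd k fun _ => ((k + 1 : ℕ) : ℝ)) ⟨k, _, Or.inr rfl, rfl⟩
      (some (k, 0)) none
    simp only [extd, if_true, sub_zero, Nat.abs_cast] at h2
    push_cast at h2
    linarith
  · intro hp
    have hd : DiscreteTopology (PP C).M := by
      refine discreteTopology_iff_isOpen_singleton.2 fun x => ?_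
      refine Metric.isOpen_singleton_iff.2 ⟨1, one_pos, fun y hy => ?_⟩
      by_contra h
      have := two_le_dd C h
      change dd C y x < 1 at hy
      linarith
    have hf := (isCompact_closedBall (PP C).base (C 0).D).finite_of_discrete
    refine Set.infinite_of_injective_forall_mem (f := fun i : ℕ => (some (0, i) : MM)) ?_ ?_ hf
    · intro i j h; simpa using h
    · intro i; exact dd_base_le C (some (0, i))

theorem PP_AP : HasAP (PP C).FreeSpace := by
  classical
  intro K hK ε hε
  obtain ⟨A1, hA1⟩ := exists_approx hK (half_pos hε) (L := 1) (L' := 1) (by norm_num)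
  set S : Finset ℕ := A1.image lev with hS
  have g1 : Good (P := PP C) {x | lev x ∈ S} 1 := good_of C _ fun k i i' h => h
  set L : ℝ := 1 + ∑ k ∈ S, (C k).D with hL
  have hL1 : 1 ≤ L := le_add_of_nonneg_right (Finset.sum_nonneg fun k _ => (D_pos C k).le)
  obtain ⟨A2, hA2⟩ := exists_approx hK (half_pos hε) (L := L) (L' := 1) (by linarith)
  have g2 : Good (P := PP C) ((A2.filter fun x => lev x ∈ S : Finset (PP C).M) : Set _) L := by
    refine good_of_bound C _ hL1 fun x hx => ?_
    have := Finset.single_le_sum (f := fun k => (C k).D) (fun k _ => (D_pos C k).le)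
      (Finset.mem_filter.1 (Finset.mem_coe.1 hx)).2
    linarith
  refine ⟨col g2, finite_range_col g2, fun μ hμ => ?_⟩
  have h1 := hA1 _ _ g1 good_univ
    (fun x hx => iff_of_true (Finset.mem_image_of_mem lev hx) trivial) μ hμ
  have h2 := hA2 _ _ g2 g1 (fun x hx => by simp [hx]) μ hμ
  rw [col_univ] at h1
  have := norm_sub_le_norm_sub_add_norm_sub (col g2 μ) (col g1 μ) μ
  linarith

theorem PP_not_BAP : ¬ HasBAP (PP C).FreeSpace := by
  classical
  rintro ⟨lam, h⟩
  obtain ⟨k, hk⟩ := exists_nat_gt (4 * (lam + 1) + 1)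
  set D := (C k).D with hD
  have hD2 : 2 ≤ D := (C k).two_le
  let pt : ℕ → (PP C).M := fun i => (some (k, i) : MM)
  have hpt : Function.Injective pt := fun i j h => by simpa [pt] using Option.some.inj h
  let δ : ℕ → (PP C).FreeSpace := fun i => (sing (pt i) : (PP C).Mol)
  obtain ⟨T, hT1, hT2, hT3⟩ := h (δ '' ((C k).L0 : Set ℕ))
    (((C k).L0.finite_toSet.image δ).isCompact) (1 / 2) (by norm_num)
  have hlam : 0 ≤ lam := (norm_nonneg _).trans hT2
  obtain ⟨K, hK, hTK⟩ := exists_compact_of_finite T hT1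
  obtain ⟨A, hA⟩ := exists_approx hK (ε := 1 / (2 * D)) (by positivity) (L := D) (L' := 1)
    (by linarith)
  set B0 : Finset ℕ := A.preimage pt hpt.injOn with hB0
  set B : Finset (PP C).M := B0.map ⟨pt, hpt⟩ with hB
  have g1 : Good (Set.range pt) 1 := good_of C _ fun k' i i' h => by
    obtain ⟨j, hj⟩ := h
    have : k = k' := congrArg Prod.fst (Option.some.inj hj)
    subst this
    exact ⟨i', rfl⟩
  have g2 : Good (B : Set (PP C).M) D := good_of_bound C _ (by linarith) fun x hx => by
    obtain ⟨i, -, rfl⟩ := Finset.mem_map.1 (Finset.mem_coe.1 hx)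
    exact le_rfl
  have hU : ∀ μ, ‖col g2 (T μ) - col g1 (T μ)‖ ≤ 1 / (2 * D) * ‖μ‖ := by
    have : ‖(col g2).comp T - (col g1).comp T‖ ≤ 1 / (2 * D) := by
      refine ContinuousLinearMap.opNorm_le_of_unit_norm (by positivity) fun μ hμ => ?_
      refine hA _ _ g2 g1 (fun x hx => ⟨fun hxB => ?_, ?_⟩) _ (hTK μ hμ.le)
      · obtain ⟨i, -, rfl⟩ := Finset.mem_map.1 (Finset.mem_coe.1 hxB)
        exact ⟨i, rfl⟩
      · rintro ⟨i, rfl⟩
        exact Finset.mem_coe.2 (Finset.mem_map.2 ⟨i, Finset.mem_preimage.2 hx, rfl⟩)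
    intro μ
    exact ((col g2).comp T - (col g1).comp T).le_of_opNorm_le this μ
  have hV : ∀ μ, ‖col g2 (T μ)‖ ≤ (lam + 1) * ‖μ‖ := by
    intro μ
    have h1 := hU μ
    have h2 := norm_col_le g1 (T μ)
    have h3 := T.le_of_opNorm_le hT2 μ
    have h4 := norm_le_norm_sub_add (col g2 (T μ)) (col g1 (T μ))
    have h5 : 1 / (2 * D) ≤ 1 := by rw [div_le_one (by linarith)]; linarith
    nlinarith [norm_nonneg μ]
  choose a ha1 ha2 using fun i => exists_mol g2 (T (δ i))
  let ex : (ℕ → ℝ) → (PP C).M → ℝ := extd k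
  have hex : ∀ g i, ex g (pt i) = g i := fun g i => if_pos rfl
  have hpair : ∀ i (g : ℕ → ℝ), (PP C).pairing (a i) (ex g)
      = ∑ b ∈ B0, (PP C).coeffs (a i) (pt b) * g b := by
    intro i g
    rw [pairing_eq_sum _ _ (ha1 i), hB, Finset.sum_map]
    exact Finset.sum_congr rfl fun b _ => congrArg _ (hex g b)
  have hδ : ∀ i, ‖δ i‖ ≤ D := fun i => by
    simp only [δ]
    rw [Completion.norm_coe]
    exact (norm_sing _).trans (dd_base_le C (pt i))
  have key := (C k).rigid (lam + 1) B0 (fun i b => (PP C).coeffs (a i) (pt b)) (by linarith)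
    ?_ ?_ ?_
  · push_cast at key
    linarith
  · intro i
    set g : ℕ → ℝ := fun b => if 0 ≤ (PP C).coeffs (a i) (pt b) then 1 else -1 with hg
    have hg1 : ∀ x, |extd k g x| ≤ 1 := by
      rintro (_ | ⟨k', j⟩)
      · simp [extd]
      · simp only [extd, hg]
        split_ifs <;> simp
    have h1 := abs_pairing_le_norm (a i) (ex g) rfl fun x y => by
      by_cases hxy : x = y
      · rw [hxy, sub_self, abs_zero]; exact dist_nonneg
      · refine le_trans ?_ (two_le_dd C hxy)
        exact (abs_sub _ _).trans ((add_le_add (hg1 x) (hg1 y)).trans_eq one_add_one_eq_two)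
    rw [hpair, ← Completion.norm_coe, ha2] at h1
    refine le_trans (le_of_eq ?_) (((le_abs_self _).trans h1).trans ((hV _).trans
      (mul_le_mul_of_nonneg_left (hδ i) (by linarith))))
    refine Finset.sum_congr rfl fun b _ => ?_
    simp only [hg]
    split_ifs with h0
    · rw [abs_of_nonneg h0, mul_one]
    · rw [abs_of_neg (not_le.1 h0), mul_neg_one]
  · intro i j t ht hij g hg
    have hG : extd k g ∈ GG C := ⟨k, g, Or.inl hg, rfl⟩
    have h1 := abs_pairing_le_norm (a i - a j) (ex g) rfl (le_dd C hG)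
    rw [pairing_sub, hpair, hpair, ← Completion.norm_coe, Completion.coe_sub, ha2, ha2,
      ← map_sub, ← map_sub] at h1
    refine h1.trans ((hV _).trans (mul_le_mul_of_nonneg_left ?_ (by linarith)))
    simp only [δ]
    rw [← Completion.coe_sub, Completion.norm_coe]
    refine (norm_sing_sub _ _).trans (dd_le C ht ?_)
    rintro _ ⟨k', g', hg', rfl⟩
    simp only [pt, extd]
    split_ifs with hk'
    · subst hk'
      rcases hg' with hg' | rfl
      · exact hij g' hg'
      · simp; linarith
    · simp; linarith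
  · intro i hi g hg
    have hG : extd k g ∈ GG C := ⟨k, g, Or.inl hg, rfl⟩
    have h1 := abs_pairing_le_norm (a i - sing (pt i)) (ex g) rfl (le_dd C hG)
    rw [pairing_sub, hpair, pairing_sing, ← Completion.norm_coe, Completion.coe_sub, ha2,
      hex] at h1
    refine h1.trans ?_
    have e2 : col g1 (δ i) = δ i := by
      simp only [δ]
      rw [col_coe]
      congr 1
      refine mol_ext fun x => ?_
      rw [coeffs_filt]
      split_ifs with hx
      · rfl
      · exact (Finsupp.single_eq_of_ne fun e => hx ⟨i, e.symm⟩).symm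
    have h2 := hU (δ i)
    have h3 := norm_col_le g1 (T (δ i) - δ i)
    rw [map_sub, e2] at h3
    have h4 := hT3 (δ i) ⟨i, hi, rfl⟩
    have h5 := norm_sub_le_norm_sub_add_norm_sub (col g2 (T (δ i))) (col g1 (T (δ i))) (δ i)
    have h6 : 1 / (2 * D) * ‖δ i‖ ≤ 1 / 2 := by
      refine (mul_le_mul_of_nonneg_left (hδ i) (by positivity)).trans_eq ?_
      field_simp
    change ‖col g2 (T (δ i)) - δ i‖ ≤ 1
    linarith

end Crest.Agent.R115
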