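import Crest.Prelude.Def_LipschitzFree

/-! Collapsing operators on Lipschitz-free spaces (row 115). -/

set_option autoImplicit false

namespace Crest.Agent.R115

open Crest.AnalysisR Crest.AnalysisR.PointedMetric UniformSpace

attribute [local instance] PointedMetric.metric

variable {P : PointedMetric}

lemma norm_le_of (a : P.Mol) {c : ℝ}
    (h : ∀ g : P.M → ℝ, g P.base = 0 → (∀ x y, |g x - g y| ≤ dist x y) → |P.pairing a g| ≤ c) :
    ‖a‖ ≤ c := by
  change P.freeNorm a ≤ c
  refine ciSup_le fun f => h f.1 f.2.2 fun x y => ?_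
  have := f.2.1.dist_le_mul x y
  rwa [Real.dist_eq, NNReal.coe_one, one_mul] at this

lemma abs_pairing_le_norm (a : P.Mol) (g : P.M → ℝ) (h0 : g P.base = 0)
    (h : ∀ x y, |g x - g y| ≤ dist x y) : |P.pairing a g| ≤ ‖a‖ := by
  have hl : LipschitzWith 1 g := LipschitzWith.of_dist_le_mul fun x y => by
    rw [Real.dist_eq, NNReal.coe_one, one_mul]; exact h x y
  exact le_ciSup (P.freeNorm_bddAbove a) (⟨g, hl, h0⟩ : P.Lip1)

lemma pairing_div (a : P.Mol) (g : P.M → ℝ) (L : ℝ) :
    P.pairing a (fun x => g x / L) = P.pairing a g / L := by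
  unfold pairing Finsupp.sum
  rw [Finset.sum_div]
  exact Finset.sum_congr rfl fun x _ => by ring

lemma abs_pairing_le_mul (a : P.Mol) (g : P.M → ℝ) {L : ℝ} (hL : 0 < L) (h0 : g P.base = 0)
    (h : ∀ x y, |g x - g y| ≤ L * dist x y) : |P.pairing a g| ≤ L * ‖a‖ := by
  have := abs_pairing_le_norm a (fun x => g x / L) (by simp [h0]) fun x y => by
    rw [← sub_div, abs_div, abs_of_pos hL, div_le_iff₀ hL, mul_comm]; exact h x y
  rwa [pairing_div, abs_div, abs_of_pos hL, div_le_iff₀ hL, mul_comm] at this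

lemma pairing_sub (a b : P.Mol) (g : P.M → ℝ) :
    P.pairing (a - b) g = P.pairing a g - P.pairing b g := by
  rw [sub_eq_add_neg, pairing_add, pairing_neg, sub_eq_add_neg]

lemma pairing_eq_sum (a : P.Mol) (g : P.M → ℝ) {B : Finset P.M}
    (h : (P.coeffs a).support ⊆ B) : P.pairing a g = ∑ b ∈ B, P.coeffs a b * g b :=
  Finsupp.sum_of_support_subset _ h _ fun _ _ => zero_mul _

/-- The point mass as a molecule. -/
noncomputable def sing (x : P.M) : P.Mol := (Finsupp.single x (1 : ℝ) : P.M →₀ ℝ)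

lemma pairing_sing (x : P.M) (g : P.M → ℝ) : P.pairing (sing x) g = g x := by
  unfold pairing
  change (Finsupp.single x (1 : ℝ)).sum _ = _
  rw [Finsupp.sum_single_index (zero_mul _), one_mul]

lemma norm_sing_sub (x y : P.M) : ‖sing x - sing y‖ ≤ dist x y :=
  norm_le_of _ fun g _ h => by rw [pairing_sub, pairing_sing, pairing_sing]; exact h x y

lemma norm_sing (x : P.M) : ‖sing x‖ ≤ dist x P.base :=
  norm_le_of _ fun g h0 h => by
    have := h x P.base
    rwa [h0, sub_zero, ← pairing_sing x g] at this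

/-- Collapsing the complement of `A` to the base point is `L`-Lipschitz. -/
def Good (A : Set P.M) (L : ℝ) : Prop :=
  1 ≤ L ∧ ∀ x ∈ A, ∀ y, y ∉ A → dist x P.base ≤ L * dist x y

open Classical in
/-- Restriction of a molecule to a set. -/
noncomputable def filt (A : Set P.M) : P.Mol →ₗ[ℝ] P.Mol where
  toFun a := (Finsupp.filter (· ∈ A) (P.coeffs a) : P.M →₀ ℝ)
  map_add' _ _ := Finsupp.filter_add
  map_smul' _ _ := Finsupp.filter_smul

open Classical in
lemma coeffs_filt (A : Set P.M) (a : P.Mol) (x : P.M) :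
    P.coeffs (filt A a) x = if x ∈ A then P.coeffs a x else 0 :=
  Finsupp.filter_apply _ _ _

lemma mol_ext {a b : P.Mol} (h : ∀ x, P.coeffs a x = P.coeffs b x) : a = b :=
  Finsupp.ext h

lemma pairing_filt (A : Set P.M) (a : P.Mol) (g : P.M → ℝ) :
    P.pairing (filt A a) g = P.pairing a (A.indicator g) := by
  have h : (P.coeffs (filt A a)).support ⊆ (P.coeffs a).support := by
    intro x hx
    rw [Finsupp.mem_support_iff] at hx ⊢
    intro h0
    apply hx
    rw [coeffs_filt, h0, ite_self]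
  rw [pairing_eq_sum _ _ h, pairing_eq_sum _ _ (Finset.Subset.refl _)]
  refine Finset.sum_congr rfl fun x _ => ?_
  rw [coeffs_filt]
  by_cases hx : x ∈ A <;> simp [hx]

lemma norm_filt_le {A : Set P.M} {L : ℝ} (h : Good A L) (a : P.Mol) : ‖filt A a‖ ≤ L * ‖a‖ := by
  refine norm_le_of _ fun g h0 hg => ?_
  rw [pairing_filt]
  have key : ∀ x ∈ A, ∀ y, y ∉ A → |g x| ≤ L * dist x y := fun x hx y hy => by
    have := hg x P.base
    rw [h0, sub_zero] at this
    exact this.trans (h.2 x hx y hy)
  refine abs_pairing_le_mul a _ (by linarith [h.1]) ?_ fun x y => ?_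
  · by_cases hb : P.base ∈ A <;> simp [hb, h0]
  · by_cases hx : x ∈ A <;> by_cases hy : y ∈ A
    · simp only [Set.indicator_of_mem hx, Set.indicator_of_mem hy]
      exact (hg x y).trans (le_mul_of_one_le_left dist_nonneg h.1)
    · simp only [Set.indicator_of_mem hx, Set.indicator_of_notMem hy, sub_zero]
      exact key x hx y hy
    · simp only [Set.indicator_of_notMem hx, Set.indicator_of_mem hy, zero_sub, abs_neg]
      rw [dist_comm]; exact key y hy x hx
    · simp only [Set.indicator_of_notMem hx, Set.indicator_of_notMem hy, sub_zero, abs_zero]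
      exact mul_nonneg (by linarith [h.1]) dist_nonneg

/-- The collapsing operator on the free space. -/
noncomputable def col {A : Set P.M} {L : ℝ} (h : Good A L) : P.FreeSpace →L[ℝ] P.FreeSpace :=
  ((filt A).mkContinuous L (norm_filt_le h)).completion

lemma col_coe {A : Set P.M} {L : ℝ} (h : Good A L) (a : P.Mol) :
    col h (a : P.FreeSpace) = (filt A a : P.Mol) :=
  ContinuousLinearMap.completion_apply_coe _ a

lemma norm_col_le {A : Set P.M} {L : ℝ} (h : Good A L) (μ : P.FreeSpace) :
    ‖col h μ‖ ≤ L * ‖μ‖ := by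
  induction μ using Completion.induction_on with
  | hp => exact isClosed_le (by fun_prop) (by fun_prop)
  | ih a => rw [col_coe, Completion.norm_coe, Completion.norm_coe]; exact norm_filt_le h a

lemma good_univ : Good (Set.univ : Set P.M) 1 := ⟨le_rfl, fun _ _ _ hy => absurd trivial hy⟩

lemma col_univ (μ : P.FreeSpace) : col good_univ μ = μ := by
  induction μ using Completion.induction_on with
  | hp => exact isClosed_eq (by fun_prop) (by fun_prop)
  | ih a =>
    rw [col_coe]
    congr 1
    exact mol_ext fun x => by rw [coeffs_filt, if_pos (Set.mem_univ x)]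

/-- The molecules supported in `B`, inside the free space. -/
noncomputable def supp (B : Finset P.M) : Submodule ℝ P.FreeSpace :=
  (Finsupp.supported ℝ ℝ (B : Set P.M)).map
    ((Completion.toComplL : P.Mol →L[ℝ] P.FreeSpace).toLinearMap : (P.M →₀ ℝ) →ₗ[ℝ] P.FreeSpace)

instance (B : Finset P.M) : FiniteDimensional ℝ (supp B) := by
  have : FiniteDimensional ℝ (Finsupp.supported ℝ ℝ (B : Set P.M)) :=
    (Finsupp.supportedEquivFinsupp (B : Set P.M)).symm.finiteDimensional
  exact @Module.Finite.map _ _ _ _ _ _ _ _ _ this _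

lemma col_mem_supp {B : Finset P.M} {L : ℝ} (h : Good (B : Set P.M) L) (μ : P.FreeSpace) :
    col h μ ∈ supp B := by
  induction μ using Completion.induction_on with
  | hp => exact (supp B).closed_of_finiteDimensional.preimage (col h).continuous
  | ih a =>
    rw [col_coe]
    refine ⟨filt (B : Set P.M) a, ?_, rfl⟩
    intro x hx
    by_contra hxB
    have := coeffs_filt (B : Set P.M) a x
    rw [if_neg hxB] at this
    exact Finsupp.mem_support_iff.1 hx this

lemma exists_mol {B : Finset P.M} {L : ℝ} (h : Good (B : Set P.M) L) (μ : P.FreeSpace) :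
    ∃ a : P.Mol, (P.coeffs a).support ⊆ B ∧ (a : P.FreeSpace) = col h μ := by
  obtain ⟨a, ha, e⟩ := col_mem_supp h μ
  exact ⟨a, fun x hx => ha hx, e⟩

lemma finite_range_col {B : Finset P.M} {L : ℝ} (h : Good (B : Set P.M) L) :
    FiniteDimensional ℝ (LinearMap.range (col h).toLinearMap) :=
  Submodule.finiteDimensional_of_le (S₂ := supp B) (by
    rintro _ ⟨μ, rfl⟩; exact col_mem_supp h μ)

lemma exists_net {K : Set P.FreeSpace} (hK : IsCompact K) {ε : ℝ} (hε : 0 < ε) :
    ∃ A : Finset P.M, ∀ μ ∈ K, ∃ a : P.Mol, (P.coeffs a).support ⊆ A ∧ ‖μ - a‖ ≤ ε := by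
  classical
  obtain ⟨t, ht⟩ := hK.elim_finite_subcover (fun a : P.Mol => Metric.ball (a : P.FreeSpace) ε)
    (fun _ => Metric.isOpen_ball) fun μ _ => by
      obtain ⟨a, ha⟩ := (Completion.denseRange_coe (α := P.Mol)).exists_dist_lt μ hε
      exact Set.mem_iUnion.2 ⟨a, ha⟩
  refine ⟨t.biUnion fun a => (P.coeffs a).support, fun μ hμ => ?_⟩
  obtain ⟨a, ha, h⟩ := Set.mem_iUnion₂.1 (ht hμ)
  refine ⟨a, Finset.subset_biUnion_of_mem (fun a => (P.coeffs a).support) ha, ?_⟩
  rw [Metric.mem_ball, dist_eq_norm] at h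
  exact h.le

/-- Collapsing operators for sets which agree on a suitable finite set are close on a compact
set. -/
lemma exists_approx {K : Set P.FreeSpace} (hK : IsCompact K) {ε : ℝ} (hε : 0 < ε) {L L' : ℝ}
    (hL : 0 < L + L') :
    ∃ A : Finset P.M, ∀ (B B' : Set P.M) (h : Good B L) (h' : Good B' L'),
      (∀ x ∈ A, x ∈ B ↔ x ∈ B') → ∀ μ ∈ K, ‖col h μ - col h' μ‖ ≤ ε := by
  obtain ⟨A, hA⟩ := exists_net hK (div_pos hε hL)
  refine ⟨A, fun B B' h h' hB μ hμ => ?_⟩
  obtain ⟨a, ha, hd⟩ := hA μ hμ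
  have e : col h (a : P.FreeSpace) = col h' a := by
    rw [col_coe, col_coe]
    congr 1
    refine mol_ext fun x => ?_
    rw [coeffs_filt, coeffs_filt]
    by_cases hx : x ∈ A
    · by_cases hxB : x ∈ B
      · rw [if_pos hxB, if_pos ((hB x hx).1 hxB)]
      · rw [if_neg hxB, if_neg fun hh => hxB ((hB x hx).2 hh)]
    · rw [Finsupp.notMem_support_iff.1 fun hh => hx (ha hh), ite_self, ite_self]
  have : col h μ - col h' μ = col h (μ - a) - col h' (μ - a) := by
    rw [map_sub, map_sub, e]; abel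
  rw [this]
  refine (norm_sub_le _ _).trans ?_
  have h1 := norm_col_le h (μ - a)
  have h2 := norm_col_le h' (μ - a)
  rw [le_div_iff₀ hL] at hd
  nlinarith

lemma exists_compact_of_finite {X : Type} [NormedAddCommGroup X] [NormedSpace ℝ X]
    (T : X →L[ℝ] X) (h : FiniteDimensional ℝ (LinearMap.range T.toLinearMap)) :
    ∃ K : Set X, IsCompact K ∧ ∀ x, ‖x‖ ≤ 1 → T x ∈ K := by
  refine ⟨Subtype.val '' Metric.closedBall (0 : LinearMap.range T.toLinearMap) ‖T‖,
    (isCompact_closedBall _ _).image continuous_subtype_val, fun x hx => ?_⟩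
  refine ⟨⟨T x, x, rfl⟩, ?_, rfl⟩
  rw [mem_closedBall_zero_iff]
  exact (T.le_opNorm x).trans (mul_le_of_le_one_right (norm_nonneg _) hx)

end Crest.Agent.R115
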